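import Vale.Agent.P281.H64.SpecG
import Vale.Agent.P281.H64.Base2
import Vale.Agent.P281.ELL.CovLocal

/-!
# P281, theorem T-D (helper511): local coordinates given by a model
-/

open Set Filter Metric Vale.Agent.P281 Vale.Agent.P281.H713 Vale.Agent.P281.H64
open scoped Topology ContDiff Manifold ComplexConjugate

noncomputable section

namespace Vale.Agent.P281.H511

section
variable {n p : ℕ} {Z Y : Type} [TopologicalSpace Z] [ChartedSpace (Cm n) Z]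
  [IsManifold 𝓘(ℂ, Cm n) ω Z] [TopologicalSpace Y] [ChartedSpace (Cm p) Y]
  [IsManifold 𝓘(ℂ, Cm p) ω Y] {f : Z → Y} {χ : OpenPartialHomeomorph Y (Cm p)}

/-- a chart of the atlas is holomorphic -/
theorem holV_chart (hχ : χ ∈ atlas (Cm p) Y) {y : Y} (hy : y ∈ χ.source) : HolV (Cm p) χ y :=
  (contMDiffAt_of_mem_maximalAtlas (IsManifold.subset_maximalAtlas hχ) hy)

theorem holM_chart_symm (hχ : χ ∈ atlas (Cm p) Y) {t : Cm p} (ht : t ∈ χ.target) :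
    ContMDiffAt 𝓘(ℂ, Cm p) 𝓘(ℂ, Cm p) ω χ.symm t :=
  (contMDiffAt_symm_of_mem_maximalAtlas (IsManifold.subset_maximalAtlas hχ) ht)

/-- holomorphic functions of the coordinates `(χ (f x), ζ x)` -/
theorem holV_coord (hf : ContMDiff 𝓘(ℂ, Cm n) 𝓘(ℂ, Cm p) ω f) (hχ : χ ∈ atlas (Cm p) Y)
    {x : Z} (hx : f x ∈ χ.source) {ζ : Z → ℂ} (hζ : HolV (Cm n) ζ x) {g : Cm p × ℂ → ℂ}
    (hg : AnalyticAt ℂ g (χ (f x), ζ x)) : HolV (Cm n) (fun x => g (χ (f x), ζ x)) x := by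
  have h1 : HolV (Cm n) (fun x => χ (f x)) x := HolV.comp (E' := Cm p) (holV_chart hχ hx) (hf x)
  exact HolV.comp_contDiff (G := g) hg.contDiffAt (h1.prodMk hζ)

theorem dif_coord (hf : ContMDiff 𝓘(ℂ, Cm n) 𝓘(ℂ, Cm p) ω f) (hχ : χ ∈ atlas (Cm p) Y)
    {x : Z} (hx : f x ∈ χ.source) {ζ : Z → ℂ} (hζ : HolV (Cm n) ζ x) {g : Cm p × ℂ → ℂ}
    (hg : AnalyticAt ℂ g (χ (f x), ζ x)) {ξ : Cm n} (hξ : dM (Cm n) (Cm p) f x ξ = 0) :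
    dif (Cm n) (fun x => g (χ (f x), ζ x)) x ξ =
      deriv (fun w => g (χ (f x), w)) (ζ x) * dif (Cm n) ζ x ξ := by
  have h1 : HolV (Cm n) (fun x => χ (f x)) x := HolV.comp (E' := Cm p) (holV_chart hχ hx) (hf x)
  have h2 : dV (Cm n) (fun x => χ (f x)) x ξ = 0 := by
    rw [dV_comp (E' := Cm p) (holV_chart hχ hx) (hf x)]
    show dV (Cm p) χ (f x) (dM (Cm n) (Cm p) f x ξ) = 0
    rw [hξ, map_zero]
  have h3 := dV_comp_contDiff (E := Cm n) (v := fun x => (χ (f x), ζ x)) (x := x) (G := g)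
    hg.contDiffAt (h1.prodMk hζ)
  have h4 : dif (Cm n) (fun x => g (χ (f x), ζ x)) x ξ =
      fderiv ℂ g (χ (f x), ζ x) (0, dif (Cm n) ζ x ξ) := by
    show dV (Cm n) (fun x => g (χ (f x), ζ x)) x ξ = _
    rw [h3]
    show fderiv ℂ g (χ (f x), ζ x) (dV (Cm n) (fun x => (χ (f x), ζ x)) x ξ) = _
    rw [dV_prodMk h1 hζ]
    show fderiv ℂ g (χ (f x), ζ x) (dV (Cm n) (fun x => χ (f x)) x ξ, dV (Cm n) ζ x ξ) = _
    rw [h2]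
    rfl
  rw [h4]
  have h5 : HasDerivAt (fun w => g (χ (f x), w)) (fderiv ℂ g (χ (f x), ζ x) (0, 1)) (ζ x) := by
    have h6 := hg.differentiableAt.hasFDerivAt
    have h7 : HasDerivAt (fun w : ℂ => (χ (f x), w)) ((0 : Cm p), (1 : ℂ)) (ζ x) :=
      (hasDerivAt_const (ζ x) (χ (f x))).prodMk (hasDerivAt_id (ζ x))
    exact HasFDerivAt.comp_hasDerivAt (ζ x) (f := fun w : ℂ => (χ (f x), w)) h6 h7
  rw [h5.deriv]
  have h8 : ((0 : Cm p), dif (Cm n) ζ x ξ) = dif (Cm n) ζ x ξ • ((0 : Cm p), (1 : ℂ)) := by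
    ext <;> simp
  rw [h8, map_smul, smul_eq_mul, mul_comm]

variable {E Γ : Type} [TopologicalSpace E] [Group Γ] [MulAction Γ E] {𝓕 : Fam p E Γ}
  {q : Cm p → E → Z}

/-- the coordinates `(χ (f x), ζ x)` are independent -/
theorem coord_inj (hf : ContMDiff 𝓘(ℂ, Cm n) 𝓘(ℂ, Cm p) ω f) (hχ : χ ∈ atlas (Cm p) Y)
    {x : Z} (hx : f x ∈ χ.source) {ζ : Z → ℂ} (hζ : HolV (Cm n) ζ x) {Ψ : Cm p × ℂ → Z}
    (hΨ : ContMDiffAt 𝓘(ℂ, Cm p × ℂ) 𝓘(ℂ, Cm n) ω Ψ (χ (f x), ζ x))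
    (he : ∀ᶠ x' in 𝓝 x, Ψ (χ (f x'), ζ x') = x') {ξ : Cm n}
    (hξ : dM (Cm n) (Cm p) f x ξ = 0) (hξ' : dif (Cm n) ζ x ξ = 0) : ξ = 0 := by
  have h1 : HolV (Cm n) (fun x => χ (f x)) x := HolV.comp (E' := Cm p) (holV_chart hχ hx) (hf x)
  have h2 : dV (Cm n) (fun x => χ (f x)) x ξ = 0 := by
    rw [dV_comp (E' := Cm p) (holV_chart hχ hx) (hf x)]
    show dV (Cm p) χ (f x) (dM (Cm n) (Cm p) f x ξ) = 0
    rw [hξ, map_zero]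
  have h3 : MDifferentiableAt 𝓘(ℂ, Cm n) 𝓘(ℂ, Cm p × ℂ) (fun x => (χ (f x), ζ x)) x :=
    (h1.prodMk hζ).mdiff
  have h4 : MDifferentiableAt 𝓘(ℂ, Cm p × ℂ) 𝓘(ℂ, Cm n) Ψ (χ (f x), ζ x) :=
    hΨ.mdifferentiableAt (by simp)
  have h5 := mfderiv_comp x (g := Ψ) (f := fun x => (χ (f x), ζ x)) h4 h3
  have h6 : mfderiv 𝓘(ℂ, Cm n) 𝓘(ℂ, Cm n) (Ψ ∘ fun x => (χ (f x), ζ x)) x =
      mfderiv 𝓘(ℂ, Cm n) 𝓘(ℂ, Cm n) (id : Z → Z) x := by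
    apply Filter.EventuallyEq.mfderiv_eq
    filter_upwards [he] with x' hx'
    exact hx'
  rw [mfderiv_id] at h6
  have h7 : ξ = mfderiv 𝓘(ℂ, Cm n) 𝓘(ℂ, Cm n) (Ψ ∘ fun x => (χ (f x), ζ x)) x ξ := by
    rw [h6]; rfl
  rw [h7, h5]
  show mfderiv 𝓘(ℂ, Cm p × ℂ) 𝓘(ℂ, Cm n) Ψ (χ (f x), ζ x)
    (dV (Cm n) (fun x => (χ (f x), ζ x)) x ξ) = 0
  rw [dV_prodMk h1 hζ]
  show mfderiv 𝓘(ℂ, Cm p × ℂ) 𝓘(ℂ, Cm n) Ψ (χ (f x), ζ x)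
    (dV (Cm n) (fun x => χ (f x)) x ξ, dif (Cm n) ζ x ξ) = 0
  rw [h2, hξ']
  exact map_zero _

end

end Vale.Agent.P281.H511
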