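import Vale.Agent.P281.H511.Ell

/-!
# P281, theorem T-D (helper511): block G1, genus one
-/

open Set Filter Metric Vale.Agent.P281 Vale.Agent.P281.H713 Vale.Agent.P281.H64
open scoped Topology ContDiff Manifold ComplexConjugate

set_option linter.unusedSectionVars false

noncomputable section

namespace Vale.Agent.P281.H511

section
variable {p : ℕ} {Z Y : Type} [TopologicalSpace Z] [T2Space Z] [ChartedSpace (Cm (p + 1)) Z]
  [IsManifold 𝓘(ℂ, Cm (p + 1)) ω Z] [TopologicalSpace Y] [T2Space Y] [ChartedSpace (Cm p) Y]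
  [IsManifold 𝓘(ℂ, Cm p) ω Y]

/-- The local data for the marked family of elliptic curves. -/
structure MarkLoc (f : Z → Y) (S : Set Y) (Δ : Set Z → ℝ) (B : Matrix (Fin 2) (Fin 2) ℝ)
    (r : ℕ) where
  L : DLoc (d := p + 1) (p := p) f B 1
  U : Set Y
  s : Fin r → Y → Z
  P : Fin r → Y → ℂ
  isOpen : IsOpen U
  ok : ∀ y ∈ U, y ∈ L.U
  sub : U ⊆ Sᶜ
  disj : ∀ k l, ∀ y ∈ U, s k y = s l y → k = l
  mark : ∀ x, f x ∈ U → ∀ D ∈ horizontal f S Δ, x ∈ D → ∃ k, x = s k (f x)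
  wt : ∀ k, ∀ y ∈ U, ∃ D ∈ horizontal f S Δ, ∀ᶠ x in 𝓝 (s k y), x ∈ D ↔ x = s k (f x)
  hol : ∀ k, ∀ y ∈ U, HolV (Cm p) (P k) y
  eq : ∀ k, ∀ y ∈ U, Ell.u L y (P k y) = s k y

variable {f : Z → Y} {S : Set Y} {Δ : Set Z → ℝ} {B : Matrix (Fin 2) (Fin 2) ℝ} {r : ℕ}
  {δ : Fin r → ℝ}

theorem exists_markLoc (hU1 : U1Stmt) (hf : ContMDiff 𝓘(ℂ, Cm (p + 1)) 𝓘(ℂ, Cm p) ω f)
    (L : DLoc (d := p + 1) (p := p) f B 1) {y₀ : Y} (hy₀ : y₀ ∈ L.U) {U : Set Y}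
    {s : Fin r → Y → Z} (hU : IsOpen U) (hyU : y₀ ∈ U) (hUS : U ⊆ Sᶜ)
    (hs : ∀ k, ∀ y ∈ U, ContMDiffAt 𝓘(ℂ, Cm p) 𝓘(ℂ, Cm (p + 1)) ω (s k) y ∧ f (s k y) = y)
    (hd : ∀ k l, ∀ y ∈ U, s k y = s l y → k = l)
    (hm : ∀ x, f x ∈ U → ∀ D ∈ horizontal f S Δ, x ∈ D → ∃ k, x = s k (f x))
    (hw : ∀ k, ∀ y ∈ U, ∃ D ∈ horizontal f S Δ, Δ D = δ k ∧
        ∀ᶠ x in 𝓝 (s k y), x ∈ D ↔ x = s k (f x)) :
    ∃ M : MarkLoc (p := p) f S Δ B r, y₀ ∈ M.U := by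
  have hok : ∀ k, f (s k y₀) ∈ L.U := fun k => by rw [(hs k y₀ hyU).2]; exact hy₀
  choose ζ hζ hζu _ using fun k => Ell.coord hU1 hf (hok k)
  have hcs : ∀ k, ContinuousAt (s k) y₀ := fun k => (hs k y₀ hyU).1.continuousAt
  have h1 : ∀ k, ∀ᶠ y in 𝓝 y₀, HolV (Cm (p + 1)) (ζ k) (s k y) := fun k =>
    (hcs k).eventually (HolV.eventually (hζ k))
  have h2 : ∀ k, ∀ᶠ y in 𝓝 y₀, Ell.u L (f (s k y)) (ζ k (s k y)) = s k y := fun k =>
    (hcs k).eventually (hζu k)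
  obtain ⟨V, hV, hVo, hyV⟩ := eventually_nhds_iff.1 (((eventually_all.2 h1).and
    (eventually_all.2 h2)).and ((hU.eventually_mem hyU).and (L.isOpen_U.eventually_mem hy₀)))
  exact ⟨{
    L := L
    U := V
    s := s
    P := fun k y => ζ k (s k y)
    isOpen := hVo
    ok := fun y hy => (hV y hy).2.2
    sub := fun y hy => hUS (hV y hy).2.1
    disj := fun k l y hy => hd k l y (hV y hy).2.1
    mark := fun x hx => hm x (hV _ hx).2.1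
    wt := fun k y hy => by
      obtain ⟨D, h3, -, h4⟩ := hw k y (hV y hy).2.1
      exact ⟨D, h3, h4⟩
    hol := fun k y hy => HolV.comp (E' := Cm (p + 1)) ((hV y hy).1.1 k) (hs k y (hV y hy).2.1).1
    eq := fun k y hy => by
      have h5 := (hV y hy).1.2 k
      rwa [(hs k y (hV y hy).2.1).2] at h5 }, hyV⟩

/-- the marked family -/
theorem isMarkedFamily (I : Inputs) (hF2 : F2Stmt) (hU1 : U1Stmt)
    (hf : ContMDiff 𝓘(ℂ, Cm (p + 1)) 𝓘(ℂ, Cm p) ω f)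
    (M : ∀ _ : {y : Y // y ∉ S}, MarkLoc (p := p) f S Δ B r) (hM : ∀ a, a.1 ∈ (M a).U)
    (D : (Fin 2 → ℝ) ≃L[ℝ] EuclideanSpace ℂ (Fin 1)) :
    IsMarkedFamily (Cm (p + 1)) (Cm p) f S (Qf B) (horizontal f S Δ) (fun a => (M a).U)
      (fun a => Ell.per (M a).L D) (fun a => Ell.u (M a).L) (fun a => (M a).P) where
  cover y := ⟨fun hy => ⟨⟨y, hy⟩, hM ⟨y, hy⟩⟩, fun ⟨a, ha⟩ => (M a).sub ha⟩
  isOpen a := (M a).isOpen
  hol a x y hy := Ell.hol_per hF2 x ((M a).ok y hy)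
  polarized a y hy := Ell.polarized hF2 ((M a).ok y hy)
  unif a y hy w w' := Ell.unif hF2 hU1 ((M a).ok y hy) w w'
  coord a x hx := Ell.coord hU1 hf ((M a).ok _ hx)
  change a b y hy := Ell.change I hF2 hU1 hf ((M a).ok y hy.1) ((M b).ok y hy.2)
  point a k y hy := (M a).hol k y hy
  distinct a k l y hy h := by
    rw [(M a).eq k y hy, (M a).eq l y hy] at h
    exact (M a).disj k l y hy h
  marked a x hx D hD hxD := by
    obtain ⟨k, hk⟩ := (M a).mark x hx D hD hxD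
    exact ⟨k, by rw [(M a).eq k _ hx]; exact hk⟩
  near a k x hx h := by
    rw [(M a).eq k _ hx] at h
    obtain ⟨D, hD, h1⟩ := (M a).wt k _ hx
    rw [← h] at h1
    refine ⟨D, hD, ?_⟩
    filter_upwards [h1, hf.continuous.continuousAt.eventually ((M a).isOpen.mem_nhds hx)]
      with z a1 a2
    rw [a1, (M a).eq k _ a2]

/-- **G1**: genus one. -/
theorem g1 (I : Inputs) (hF2 : F2Stmt) (hU1 : U1Stmt) (hM : MStmt)
    (hf : ContMDiff 𝓘(ℂ, Cm (p + 1)) 𝓘(ℂ, Cm p) ω f)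
    (hpf : IsProperFibration (n := p + 1) (p := p) f S) (hconn : IsPreconnected Sᶜ)
    (hfin : {D | Δ D ≠ 0}.Finite) (hcl : ∀ D, Δ D ≠ 0 → IsClosed D)
    (het : IsEtale (n := p + 1) (p := p) f S Δ)
    (hL : ∀ y₀ ∉ S, ∃ L : DLoc (d := p + 1) (p := p) f B 1, y₀ ∈ L.χ.source ∧ L.χ y₀ ∈ L.T') :
    IsFamilyOfCurves (Cm (p + 1)) (Cm p) f S Δ := by
  obtain ⟨r, δ, hs⟩ := hM p Z Y f S Δ hf hpf hconn hfin hcl het
  have key : ∀ a : {y : Y // y ∉ S}, ∃ M : MarkLoc (p := p) f S Δ B r, a.1 ∈ M.U := by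
    rintro ⟨y₀, hy₀⟩
    obtain ⟨L, h1, h2⟩ := hL y₀ hy₀
    obtain ⟨U, s, a1, a2, a3, a4, a5, a6, a7⟩ := hs y₀ hy₀
    exact exists_markLoc hU1 hf L ⟨h1, h2⟩ a1 a2 a3 a4 a5 a6 a7
  choose M hMU using key
  exact Or.inr (Or.inl ⟨2, r, Qf B, {y : Y // y ∉ S}, _, _, _, _,
    isMarkedFamily I hF2 hU1 hf M hMU
      ((ContinuousLinearEquiv.finTwoArrow ℝ ℝ).trans
        (Complex.equivRealProdCLM.symm.trans evR.symm))⟩)

end

end Vale.Agent.P281.H511
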