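import Vale.Agent.P281.H125.C1
import Vale.Agent.P281.H240.C2
import Vale.Agent.P281.H240.C3
import Vale.Agent.P281.H864.E1
import Vale.Agent.P281.H864.E2
import Vale.Agent.P281.H383.F1
import Vale.Agent.P281.H383.F2
import Vale.Agent.P281.H64.K
import Vale.Agent.P281.H152.AB
import Vale.Agent.P281.H603.D
import Vale.Agent.P281.H603.D0
import Vale.Agent.P281.H150.M
import Vale.Agent.P281.H464.U0
import Vale.Agent.P281.H464.U1
import Vale.Agent.P281.H64.G2
import Vale.Agent.P281.H511.G0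
import Vale.Agent.P281.H511.G1

/-!
# P281, theorem T-D (helper511): assembly
-/

open Set Filter Metric Vale.Agent.P281 Vale.Agent.P281.H713 Vale.Agent.P281.H64
open scoped Topology ContDiff Manifold ComplexConjugate

noncomputable section

namespace Vale.Agent.P281.H511

theorem c2' : C2Stmt := H240.c2 H125.c1

theorem c3' : C3Stmt := H240.c3 H125.c1 H864.e1 H864.e3

theorem inputs : Inputs := ⟨c2', H864.e1, H864.e2, H383.f1, k⟩

theorem f2' : F2Stmt := H383.f2 c2' H864.e1

theorem d' : DStmt := H603.dStmt c2'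

theorem d0' : D0Stmt := H603.d0Stmt c2' c3'

theorem u1' : U1Stmt := H464.u1 c2' c3'

/-- **T-D**: over `Y ∖ S`, a smooth proper family of curves, with an étale horizontal boundary, is a
family of curves of genus `≥ 2`, a marked family of elliptic curves, or a marked `ℙ¹`-bundle. -/
theorem td : TDStmt := by
  intro p Z Y _ _ _ _ _ _ _ _ f S Δ hf hpf hconn hfin hcl het
  by_cases hne : ∃ y₁, y₁ ∉ S
  · obtain ⟨y₁, hy₁⟩ := hne
    obtain ⟨n, g, hn, B, hL⟩ := dglob inputs d' hf hpf.isClosed hconn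
      (H152.ab p Z Y f S hf hpf) hy₁
    rcases g with _ | _ | g
    · obtain rfl : n = 0 := hn
      refine g0 d0' H464.u0 c2' k H150.m hf hpf hconn hfin hcl het (B := B) fun y₀ hy₀ => ?_
      obtain ⟨L, h1, h2, -⟩ := hL y₀ hy₀
      exact ⟨L.toLoc, h1, L.hT' h2⟩
    · obtain rfl : n = 2 := hn
      refine g1 inputs f2' u1' H150.m hf hpf hconn hfin hcl het (B := B) fun y₀ hy₀ => ?_
      obtain ⟨L, h1, h2, -⟩ := hL y₀ hy₀
      exact ⟨L, h1, h2⟩
    · obtain ⟨U, π, α, h⟩ := g2 inputs f2' hn hf hL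
      exact Or.inl ⟨g + 1 + 1, n, Qf B, {y // y ∉ S}, U, π, α, by omega, h⟩
  · push Not at hne
    exact g0 d0' H464.u0 c2' k H150.m hf hpf hconn hfin hcl het (B := 0)
      fun y₀ hy₀ => absurd (hne y₀) hy₀

end Vale.Agent.P281.H511
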