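import Vale.Agent.P281.H511.PLoc

/-!
# P281, theorem T-D (helper511): change of homogeneous coordinates in genus zero
-/

open Set Filter Metric Vale.Agent.P281 Vale.Agent.P281.H713 Vale.Agent.P281.H64
open scoped Topology ContDiff Manifold ComplexConjugate

set_option linter.unusedSectionVars false

noncomputable section

namespace Vale.Agent.P281.H511

theorem crd_pull {E Γ E' Γ' : Type} [TopologicalSpace E] [Group Γ] [MulAction Γ E]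
    [TopologicalSpace E'] [Group Γ'] [MulAction Γ' E'] (τ : E ≃ₜ E') (ρ : Γ ≃* Γ')
    (hτ : ∀ γ e, τ (γ • e) = ρ γ • τ e) (m : E' → ℂ) (e₁ : E') (e : E) :
    crd Γ (fun e => m (τ e)) (τ.symm e₁) e = crd Γ' m e₁ (τ e) := by
  have h : (∃ γ : Γ, γ • τ.symm e₁ = e) ↔ ∃ γ : Γ', γ • e₁ = τ e := by
    constructor
    · rintro ⟨γ, h1⟩
      exact ⟨ρ γ, by rw [← h1, hτ, τ.apply_symm_apply]⟩
    · rintro ⟨γ, h1⟩
      refine ⟨ρ.symm γ, τ.injective ?_⟩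
      rw [hτ, τ.apply_symm_apply, ρ.apply_symm_apply, h1]
  rw [crd, crd]
  by_cases h1 : ∃ γ : Γ, γ • τ.symm e₁ = e
  · rw [if_pos h1, if_pos (h.1 h1)]
  · rw [if_neg h1, if_neg (fun h2 => h1 (h.2 h2))]

section
variable {d p : ℕ} {Z Y : Type} [TopologicalSpace Z] [T2Space Z] [ChartedSpace (Cm d) Z]
  [IsManifold 𝓘(ℂ, Cm d) ω Z] [TopologicalSpace Y] [T2Space Y] [ChartedSpace (Cm p) Y]
  [IsManifold 𝓘(ℂ, Cm p) ω Y] {f : Z → Y} {B : Matrix (Fin 0) (Fin 0) ℝ}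

/-- the changes of coordinates are projective -/
theorem PLoc.change (hC2 : C2Stmt) (hK : KStmt) (hU0 : U0Stmt)
    (hf : ContMDiff 𝓘(ℂ, Cm d) 𝓘(ℂ, Cm p) ω f) (P P' : PLoc (d := d) (p := p) f B) {y : Y}
    (hy : P.Ok y) (hy' : P'.Ok y) :
    ∃ A : (ℂ × ℂ) ≃ₗ[ℂ] (ℂ × ℂ), ∀ x, f x = y → J.wedge (P'.c x) (A (P.c x)) = 0 := by
  obtain ⟨τ, ρ, hτ, hq, hol⟩ := hK d p Z Y f P.E P.Γ P.𝓕 P.q P.χ P'.E P'.Γ P'.𝓕 P'.q P'.χ hf
    P.model P'.model (P.χ y) (P.hT' hy.2) (P'.χ y) (P'.hT' hy'.2)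
    (by rw [P.χ.left_inv hy.1, P'.χ.left_inv hy'.1])
  have hc : HolCompat (P.𝓕.at _ (P.hT' hy.2)) ((P'.𝓕.at _ (P'.hT' hy'.2)).pull τ ρ hτ) := by
    intro i j z hz w hw γ he
    have he' : τ (P.𝓕.σ i (P.χ y) z) = ρ γ • P'.𝓕.σ j (P'.χ y) w := by
      have h1 : τ (P.𝓕.σ i (P.χ y) z) = τ (γ • τ.symm (P'.𝓕.σ j (P'.χ y) w)) := congrArg τ he
      rw [hτ, τ.apply_symm_apply] at h1
      exact h1
    obtain ⟨θ, h1, h2, h3, h4⟩ := hol i j z hz w hw (ρ γ) he'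
    refine ⟨θ, h1, h2, h3, ?_⟩
    filter_upwards [h4] with u hu
    apply τ.injective
    show τ (P.𝓕.σ i (P.χ y) u) = τ (γ • τ.symm (P'.𝓕.σ j (P'.χ y) (θ u)))
    rw [hτ, τ.apply_symm_apply, hu]
  have H := P.spole hy.2
  have H' := SPole.of_compat hc ((P'.spole hy'.2).pull (τ := τ) (ρ := ρ) (hτ := hτ))
  obtain ⟨A, hA⟩ := mobius (fun h hh => (hC2 _ _ _).2 h _ hh (fun _ => by simp)) H H'
    (P.u0 hU0 hy.2).2.2
  refine ⟨A, fun x hx => ?_⟩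
  have hPx : P.Ok (f x) := by rw [hx]; exact hy
  obtain ⟨e, he⟩ := P.exists_e hPx
  rw [hx] at he
  have h1 : P.c x = crd P.Γ (P.m (P.χ y)) (P.𝓕.σ P.i₀ (P.χ y) 0) e := by
    rw [← he, P.c_q hy.2]
  have h2 : P'.c x = crd P'.Γ (P'.m (P'.χ y)) (P'.𝓕.σ P'.i₀ (P'.χ y) 0) (τ e) := by
    rw [← he, ← hq, P'.c_q hy'.2]
  rw [h1, h2, ← crd_pull τ ρ hτ]
  exact hA e

end

end Vale.Agent.P281.H511
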