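import Vale.Agent.P281.H64.G2d
import Vale.Agent.P281.H511.Loc

/-!
# P281, theorem T-D (helper511): genus one, the uniformization of the fibres
-/

open Set Filter Metric Vale.Agent.P281 Vale.Agent.P281.H713 Vale.Agent.P281.H64
open scoped Topology ContDiff Manifold ComplexConjugate

set_option linter.unusedSectionVars false

noncomputable section

namespace Vale.Agent.P281.H511

/-- `V₁ = ℂ` -/
def ev : EuclideanSpace ℂ (Fin 1) ≃L[ℂ] ℂ :=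
  (PiLp.continuousLinearEquiv 2 ℂ (fun _ : Fin 1 => ℂ)).trans
    (ContinuousLinearEquiv.funUnique (Fin 1) ℂ ℂ)

theorem ev_apply (v : EuclideanSpace ℂ (Fin 1)) : ev v = v 0 := rfl

/-- the same, real linear -/
def evR : EuclideanSpace ℂ (Fin 1) ≃L[ℝ] ℂ :=
  (PiLp.continuousLinearEquiv 2 ℝ (fun _ : Fin 1 => ℂ)).trans
    (ContinuousLinearEquiv.funUnique (Fin 1) ℝ ℂ)

theorem evR_apply (v : EuclideanSpace ℂ (Fin 1)) : evR v = ev v := rfl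

theorem evR_symm_apply (v : ℂ) : evR.symm v = ev.symm v := rfl

theorem ev_inner (v w : EuclideanSpace ℂ (Fin 1)) : inner ℂ (ev v) (ev w) = inner ℂ v w := by
  rw [PiLp.inner_apply, Fin.sum_univ_one]
  rfl

variable {d p : ℕ} {Z Y : Type} [TopologicalSpace Z] [T2Space Z] [ChartedSpace (Cm d) Z]
  [IsManifold 𝓘(ℂ, Cm d) ω Z] [TopologicalSpace Y] [T2Space Y] [ChartedSpace (Cm p) Y]
  [IsManifold 𝓘(ℂ, Cm p) ω Y] {f : Z → Y} {B : Matrix (Fin 2) (Fin 2) ℝ}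

namespace Ell

variable (L : DLoc (d := d) (p := p) f B 1)

theorem nonconst {t : Cm p} (ht : t ∈ L.T') : ∃ e e', L.F t e 0 ≠ L.F t e' 0 := by
  by_contra h
  push Not at h
  have hb := L.bas t ht
  have h1 : ∀ γ, L.c t γ 0 = 0 := fun γ => (hb.add 0).per_zero h γ
  have h2 := hb.indep (fun _ => 1) (fun γ => by simp [h1 γ])
  exact one_ne_zero (congrFun h2 0)

theorem u1 (hU1 : U1Stmt) {t : Cm p} (ht : t ∈ L.T') :
    Function.Bijective (fun e => L.F t e 0) ∧ IsOpenMap (fun e => L.F t e 0) ∧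
      Function.Injective (fun γ => L.c t γ 0) ∧
      ∀ i, ∀ z ∈ ball (0 : ℂ) 3, deriv (fun z => L.F t (L.𝓕.σ i t z) 0) z ≠ 0 :=
  hU1 L.E L.Γ (L.𝓕.at t (L.hT' ht)) (fun e => L.F t e 0) (fun γ => L.c t γ 0) L.M
    ((L.bas t ht).add 0) (nonconst L ht)

/-- the inverse of `F t` -/
def inv (t : Cm p) (w : ℂ) : L.E := Function.invFun (fun e => L.F t e 0) w

theorem F_inv (hU1 : U1Stmt) {t : Cm p} (ht : t ∈ L.T') (w : ℂ) : L.F t (inv L t w) 0 = w :=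
  Function.rightInverse_invFun (u1 L hU1 ht).1.2 w

theorem inv_F (hU1 : U1Stmt) {t : Cm p} (ht : t ∈ L.T') (e : L.E) : inv L t (L.F t e 0) = e :=
  Function.leftInverse_invFun (u1 L hU1 ht).1.1 e

/-- the uniformization -/
def u (y : Y) (w : ℂ) : Z := L.q (L.χ y) (inv L (L.χ y) w)

/-- the periods -/
def per (D : (Fin 2 → ℝ) ≃L[ℝ] EuclideanSpace ℂ (Fin 1)) (y : Y) : (Fin 2 → ℝ) ≃L[ℝ] ℂ :=
  (L.π D y).trans evR

theorem per_apply (D : (Fin 2 → ℝ) ≃L[ℝ] EuclideanSpace ℂ (Fin 1)) (y : Y) (x : Fin 2 → ℝ) :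
    per L D y x = ev (L.π D y x) := rfl

variable {L}
variable {D : (Fin 2 → ℝ) ≃L[ℝ] EuclideanSpace ℂ (Fin 1)}

theorem cong_iff (hF2 : F2Stmt) (hU1 : U1Stmt) {y : Y} (hy : y ∈ L.U) (e e' : L.E) :
    L.q (L.χ y) e = L.q (L.χ y) e' ↔ ∃ m : Fin 2 → ℤ,
      L.F (L.χ y) e' 0 = L.F (L.χ y) e 0 + per L D y fun i => (m i : ℝ) := by
  rw [L.model.eq _ (L.hT' hy.2)]
  have hb := L.bas _ hy.2
  have hπ := DLoc.π_spec (L := L) hF2 rfl D hy
  constructor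
  · rintro ⟨γ, rfl⟩
    obtain ⟨m, hm⟩ := hb.congr hπ γ e
    exact ⟨m, congrArg ev hm⟩
  · rintro ⟨m, hm⟩
    obtain ⟨γ, hγ⟩ := L.M.surj m
    refine ⟨γ, (u1 L hU1 hy.2).1.1 ?_⟩
    have h1 := hb.per_eq (M := L.M) γ
    rw [← hπ] at h1
    simp only [hγ] at h1
    have h2 : L.c (L.χ y) γ 0 = per L D y fun i => (m i : ℝ) := congrArg ev h1
    show L.F (L.χ y) (γ • e) 0 = L.F (L.χ y) e' 0
    rw [hm, ← h2]
    exact (hb.add 0).add γ e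

theorem u_eq (hU1 : U1Stmt) {y : Y} (hy : y ∈ L.U) (e : L.E) :
    u L y (L.F (L.χ y) e 0) = L.q (L.χ y) e := by
  rw [u, inv_F L hU1 hy.2]

theorem f_u {y : Y} (hy : y ∈ L.U) (w : ℂ) : f (u L y w) = y := by
  rw [u, L.model.fib _ (L.hT' hy.2), L.left_inv hy]

theorem unif (hF2 : F2Stmt) (hU1 : U1Stmt) {y : Y} (hy : y ∈ L.U) (w w' : ℂ) :
    f (u L y w) = y ∧ (u L y w = u L y w' ↔ ∃ m : Fin 2 → ℤ,
      w' = w + per L D y fun i => (m i : ℝ)) := by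
  refine ⟨f_u hy w, ?_⟩
  rw [u, u, cong_iff (D := D) hF2 hU1 hy, F_inv L hU1 hy.2, F_inv L hU1 hy.2]

theorem hol_per (hF2 : F2Stmt) (x : Fin 2 → ℝ) {y : Y} (hy : y ∈ L.U) :
    ContMDiffAt 𝓘(ℂ, Cm p) 𝓘(ℂ, ℂ) ω (fun y => per L D y x) y :=
  HolV.comp_contDiff (E := Cm p) (G := ev) ev.contDiff.contDiffAt
    (DLoc.hol_π (L := L) hF2 rfl D x hy)

theorem polarized (hF2 : F2Stmt) {y : Y} (hy : y ∈ L.U) :
    IsPolarized (Qf B) (per L D y) := by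
  obtain ⟨G, hG⟩ := DLoc.polarized (L := L) hF2 rfl D hy
  refine ⟨ev.symm.trans (G.trans ev), fun x x' => ?_⟩
  rw [← hG]
  show (inner ℂ (ev (G (ev.symm (ev (L.π D y x))))) (ev (G (ev.symm (ev (L.π D y x')))))).im = _
  rw [ev.symm_apply_apply, ev.symm_apply_apply, ev_inner]

/-- the fibre coordinate -/
theorem coord (hU1 : U1Stmt) (hf : ContMDiff 𝓘(ℂ, Cm d) 𝓘(ℂ, Cm p) ω f) {x : Z}
    (hx : f x ∈ L.U) : ∃ ζ : Z → ℂ, ContMDiffAt 𝓘(ℂ, Cm d) 𝓘(ℂ, ℂ) ω ζ x ∧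
    (∀ᶠ z in 𝓝 x, u L (f z) (ζ z) = z) ∧ ∀ ξ : Cm d, mfderiv 𝓘(ℂ, Cm d) 𝓘(ℂ, Cm p) f x ξ = 0 →
      mfderiv 𝓘(ℂ, Cm d) 𝓘(ℂ, ℂ) ζ x ξ = 0 → ξ = 0 := by
  obtain ⟨i, z, ζ, hz, h1, h2, h3, h4⟩ := L.chart hx
  have hz3 := Sheets.mem3 hz
  set g : Cm p × ℂ → ℂ := fun r => L.F r.1 (L.𝓕.σ i r.1 r.2) 0 with hg
  have hga : AnalyticAt ℂ g (L.χ (f x), ζ x) := by
    rw [h3]; exact L.holF i _ hx.2 z hz3 0
  refine ⟨fun x' => g (L.χ (f x'), ζ x'), holV_coord hf L.model.atlas hx.1 h2 hga, ?_, ?_⟩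
  · filter_upwards [h4, L.eventually_mem hf hx] with x' a b
    show u L (f x') (L.F (L.χ (f x')) (L.𝓕.σ i (L.χ (f x')) (ζ x')) 0) = x'
    rw [u_eq hU1 b, a]
  · intro ξ hξ h
    have h5 := dif_coord (g := g) hf L.model.atlas hx.1 h2 hga hξ
    have h6 : dif (Cm d) (fun x' => g (L.χ (f x'), ζ x')) x ξ = 0 := h
    rw [h5, h3] at h6
    have h7 : deriv (fun w => g (L.χ (f x), w)) z ≠ 0 := (u1 L hU1 hx.2).2.2.2 i z hz3
    have h8 : dif (Cm d) ζ x ξ = 0 := (mul_eq_zero.1 h6).resolve_left h7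
    exact coord_inj (Ψ := fun r : Cm p × ℂ => L.q r.1 (L.𝓕.σ i r.1 r.2)) hf L.model.atlas hx.1 h2
      (by rw [h3]; exact L.model.hol i _ (L.hT' hx.2) z hz3) h4 hξ h8

/-- change of uniformization -/
theorem change (I : Inputs) (hF2 : F2Stmt) (hU1 : U1Stmt)
    (hf : ContMDiff 𝓘(ℂ, Cm d) 𝓘(ℂ, Cm p) ω f) {L' : DLoc (d := d) (p := p) f B 1}
    {D' : (Fin 2 → ℝ) ≃L[ℝ] EuclideanSpace ℂ (Fin 1)} {y : Y} (hy : y ∈ L.U) (hy' : y ∈ L'.U) :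
    ∃ (G : ℂ ≃L[ℂ] ℂ) (c : ℂ),
    (∀ x x', Qf B ((per L' D' y).symm (G (per L D y x))) ((per L' D' y).symm (G (per L D y x'))) =
      Qf B x x') ∧ ∀ w, u L' y (G w + c) = u L y w := by
  obtain ⟨G, b, hG, hα⟩ := DLoc.change (n := 2) (g := 1) I hF2 rfl hf L L' D D' hy hy'
  refine ⟨ev.symm.trans (G.trans ev), ev b, fun x x' => ?_, fun w => ?_⟩
  · rw [← hG.2.2 x x']
    show Qf B ((L'.π D' y).symm (ev.symm (ev (G (ev.symm (ev (L.π D y x)))))))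
      ((L'.π D' y).symm (ev.symm (ev (G (ev.symm (ev (L.π D y x'))))))) = _
    rw [ev.symm_apply_apply, ev.symm_apply_apply, ev.symm_apply_apply, ev.symm_apply_apply]
  · have hfx : f (u L y w) = y := f_u hy w
    set x := u L y w with hx
    obtain ⟨m, hm⟩ := hα x hfx
    have hqx : L.q (L.χ (f x)) (inv L (L.χ y) w) = x := by rw [hfx]; rfl
    have hy1 : f x ∈ L.U := by rw [hfx]; exact hy
    obtain ⟨m₁, hm₁⟩ := DLoc.congr_aux (L := L) hF2 (n := 2) (g := 1) rfl D hy1 hqx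
    obtain ⟨m₂, hm₂⟩ := hG.1 m₁
    rw [hfx] at hm₁
    have hx' : L'.q (L'.χ y) (L'.pt x) = x := by
      have := L'.q_pt (x := x) (by rw [hfx]; exact hy')
      rwa [hfx] at this
    have h1 : (WithLp.toLp 2 (L'.F (L'.χ y) (L'.pt x)) : EuclideanSpace ℂ (Fin 1)) =
        G (ev.symm w) + b + L'.π D' y fun i => ((m i - m₂ i : ℤ) : ℝ) := by
      have h2 : L'.α x = WithLp.toLp 2 (L'.F (L'.χ y) (L'.pt x)) := by
        rw [DLoc.α, hfx]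
      have h3 : (WithLp.toLp 2 (L.F (L.χ y) (inv L (L.χ y) w)) : EuclideanSpace ℂ (Fin 1)) =
          ev.symm w := by
        apply ev.injective
        rw [ev.apply_symm_apply]
        exact F_inv L hU1 hy.2 w
      have h4 : L.α x = ev.symm w - L.π D y fun i => (m₁ i : ℝ) := by
        rw [← h3, hm₁, add_sub_cancel_right]
      have h5 : (fun i => ((m i - m₂ i : ℤ) : ℝ)) =
          (fun i => (m i : ℝ)) - fun i => (m₂ i : ℝ) := by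
        funext i
        simp
      rw [← h2, hm, h4, map_sub, hm₂, h5, map_sub]
      abel
    have h6 : L'.F (L'.χ y) (L'.pt x) 0 = ev (G (ev.symm w)) + ev b +
        per L' D' y fun i => ((m i - m₂ i : ℤ) : ℝ) := by
      have h7 := congrArg ev h1
      rw [map_add, map_add] at h7
      exact h7
    have h8 := ((unif (D := D') hF2 hU1 hy' (ev (G (ev.symm w)) + ev b)
      (L'.F (L'.χ y) (L'.pt x) 0)).2).2 ⟨fun i => m i - m₂ i, h6⟩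
    show u L' y (ev (G (ev.symm w)) + ev b) = x
    rw [h8, u_eq hU1 hy', hx']

end Ell

end Vale.Agent.P281.H511
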