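import Vale.Agent.P281.H64.Glob

/-!
# P281, theorem T-D (helper511): change of marking and the form of the periods
-/

open Set Filter Metric Vale.Agent.P281 Vale.Agent.P281.H713 Vale.Agent.P281.H64
open scoped Topology ContDiff Manifold ComplexConjugate Matrix

set_option linter.unusedSectionVars false

noncomputable section

namespace Vale.Agent.P281.H511

theorem sum_form {n : ℕ} (B : Matrix (Fin n) (Fin n) ℝ) (a b : Fin n → ℝ) :
    ∑ k, ∑ l, B k l * a k * b l = a ⬝ᵥ (B *ᵥ b) := by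
  simp only [dotProduct, Matrix.mulVec, Finset.mul_sum]
  refine Finset.sum_congr rfl fun k _ => Finset.sum_congr rfl fun l _ => ?_
  ring

variable {E Γ : Type} [TopologicalSpace E] [T2Space E] [SimplyConnectedSpace E] [Group Γ]
  [MulAction Γ E] [ContinuousConstSMul Γ E]

/-- the matrix of the change of marking -/
def chg {n : ℕ} (M M' : Mark Γ n) : Matrix (Fin n) (Fin n) ℝ := fun k l => M'.φ l (M.g k)

theorem chg_apply {n : ℕ} (M M' : Mark Γ n) {a : Γ → ℝ} (ha : ∀ x y, a (x * y) = a x + a y) :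
    (fun k => a (M.g k)) = chg M M' *ᵥ (fun l => a (M'.g l)) := by
  funext k
  rw [M'.complete a ha (M.g k)]
  simp only [Matrix.mulVec, dotProduct, chg]
  refine Finset.sum_congr rfl fun l _ => ?_
  ring

/-- the change of marking preserves the form -/
theorem form_chg (hC2 : C2Stmt) {S : Sheets E Γ} {n : ℕ} {M M' : Mark Γ n}
    {B : Matrix (Fin n) (Fin n) ℝ} (hB : HasForm S M B) (hB' : HasForm S M' B) :
    (chg M M')ᵀ * B * chg M M' = B := by
  refine HasForm.unique (hC2 E Γ S).1 (M := M') ?_ hB'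
  intro h c h' c' H H'
  obtain ⟨e⟩ : Nonempty E := inferInstance
  have hc : ∀ x y, c (x * y) = c x + c y := fun x y => H.map_mul x y
  have hc' : ∀ x y, c' (x * y) = c' x + c' y := fun x y => H'.map_mul x y
  rw [hB h c h' c' H H', sum_form B (fun k => (c (M.g k)).re) (fun l => (c' (M.g l)).re),
    sum_form _ (fun k => (c (M'.g k)).re) (fun l => (c' (M'.g l)).re),
    chg_apply M M' (a := fun γ => (c γ).re) (fun x y => by rw [hc, Complex.add_re]),
    chg_apply M M' (a := fun γ => (c' γ).re) (fun x y => by rw [hc', Complex.add_re])]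
  rw [← Matrix.mulVec_mulVec, ← Matrix.mulVec_mulVec, Matrix.dotProduct_mulVec _ (chg M M')ᵀ,
    Matrix.vecMul_transpose]

theorem form_chg_inv (hC2 : C2Stmt) {S : Sheets E Γ} {n : ℕ} {M M' : Mark Γ n}
    {B : Matrix (Fin n) (Fin n) ℝ} (hB : HasForm S M B) (hB' : HasForm S M' B)
    (hdet : IsUnit B.det) : chg M M' * B⁻¹ * (chg M M')ᵀ = B⁻¹ := by
  have h := form_chg hC2 hB hB'
  set R := chg M M' with hR
  have h1 : IsUnit R.det := by
    have h2 := congrArg Matrix.det h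
    rw [Matrix.det_mul, Matrix.det_mul, Matrix.det_transpose] at h2
    rw [isUnit_iff_ne_zero]
    intro h3
    rw [h3, mul_zero] at h2
    exact hdet.ne_zero h2.symm
  have h2 : B⁻¹ = R⁻¹ * B⁻¹ * (Rᵀ)⁻¹ := by
    conv_lhs => rw [← h]
    rw [Matrix.mul_inv_rev, Matrix.mul_inv_rev, Matrix.mul_assoc]
  have h3 : IsUnit (Rᵀ).det := by rwa [Matrix.det_transpose]
  calc R * B⁻¹ * Rᵀ = R * (R⁻¹ * B⁻¹ * (Rᵀ)⁻¹) * Rᵀ := by rw [← h2]
    _ = (R * R⁻¹) * B⁻¹ * ((Rᵀ)⁻¹ * Rᵀ) := by simp only [Matrix.mul_assoc]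
    _ = B⁻¹ := by rw [Matrix.mul_nonsing_inv _ h1, Matrix.nonsing_inv_mul _ h3, one_mul, mul_one]

/-- the polarization is preserved: `Q (Rᵀ x) (Rᵀ x') = Q x x'` -/
theorem pol_chg (hC2 : C2Stmt) {S : Sheets E Γ} {n : ℕ} {M M' : Mark Γ n}
    {B : Matrix (Fin n) (Fin n) ℝ} (hB : HasForm S M B) (hB' : HasForm S M' B)
    (hdet : IsUnit B.det) (x x' : Fin n → ℝ) :
    ∑ k, ∑ l, B⁻¹ k l * (((chg M M')ᵀ *ᵥ x') k) * (((chg M M')ᵀ *ᵥ x) l) =
      ∑ k, ∑ l, B⁻¹ k l * x' k * x l := by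
  rw [sum_form, sum_form]
  conv_rhs => rw [← form_chg_inv hC2 hB hB' hdet]
  rw [← Matrix.mulVec_mulVec, ← Matrix.mulVec_mulVec, Matrix.dotProduct_mulVec _ (chg M M'),
    ← Matrix.mulVec_transpose]

end Vale.Agent.P281.H511
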