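import Vale.Agent.P281.H511.Line

/-!
# P281, theorem T-D (helper511): block G0, genus zero
-/

open Set Filter Metric Vale.Agent.P281 Vale.Agent.P281.H713 Vale.Agent.P281.H64
open scoped Topology ContDiff Manifold ComplexConjugate

set_option linter.unusedSectionVars false

noncomputable section

namespace Vale.Agent.P281.H511

section
variable {p : ℕ} {Z Y : Type} [TopologicalSpace Z] [T2Space Z] [ChartedSpace (Cm (p + 1)) Z]
  [IsManifold 𝓘(ℂ, Cm (p + 1)) ω Z] [TopologicalSpace Y] [T2Space Y] [ChartedSpace (Cm p) Y]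
  [IsManifold 𝓘(ℂ, Cm p) ω Y]

/-- the line family -/
theorem isLineFamily (hU0 : U0Stmt) (hC2 : C2Stmt) (hK : KStmt)
    {f : Z → Y} {S : Set Y} {Δ : Set Z → ℝ} (hf : ContMDiff 𝓘(ℂ, Cm (p + 1)) 𝓘(ℂ, Cm p) ω f)
    (het : IsEtale (n := p + 1) (p := p) f S Δ) {B : Matrix (Fin 0) (Fin 0) ℝ} {r : ℕ}
    {δ : Fin r → ℝ} (L : ∀ _ : {y : Y // y ∉ S}, LineLoc (p := p) f S Δ B δ)
    (hL : ∀ a, a.1 ∈ (L a).U) :
    IsLineFamily (Cm (p + 1)) (Cm p) f S Δ δ (horizontal f S Δ) (fun a => (L a).U)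
      (fun a => (L a).pt) (fun a => (L a).P.c) where
  cover y := ⟨fun hy => ⟨⟨y, hy⟩, hL ⟨y, hy⟩⟩, fun ⟨a, ha⟩ => (L a).sub ha⟩
  isOpen a := (L a).isOpen
  branch a k y hy := (L a).hol_pt hy
  distinct a k l y hy hkl h := by
    apply hkl
    refine (L a).disj k l y hy ?_
    have h1 : f ((L a).s k y) = y := ((L a).sec k y hy).2
    have h2 : f ((L a).s l y) = y := ((L a).sec l y hy).2
    refine (L a).P.c_inj hU0 (by rw [h1]; exact (L a).ok y hy) (by rw [h1, h2]) ?_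
    exact wedge_trans ((L a).pt_ne hy) ((L a).wedge_s hy)
      (wedge_trans ((L a).pt_ne hy) h (wedge_comm_zero ((L a).wedge_s hy)))
  surj a y hy v := (L a).P.c_surj hU0 ((L a).ok y hy) v
  degree a y hy x hx h hinj := by
    have h1 : x 1 = x 0 := by
      refine (L a).P.c_inj hU0 (by rw [hx 1]; exact (L a).ok y hy) (by rw [hx 1, hx 0]) (h 1)
    exact absurd (hinj h1) (by decide)
  lift a x hx := by
    refine ⟨(L a).P.c_ne ((L a).ok _ hx), ?_⟩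
    obtain ⟨G, hG⟩ := (L a).P.exists_lift hU0 hf ((L a).ok _ hx)
    exact ⟨G, hG.h1, hG.h2, hG.ne, hG.ev, fun _ => hG.imm, fun k hk => (L a).lift hU0 hf hx hG hk⟩
  change a b y hy := by
    obtain ⟨A, hA⟩ := PLoc.change hC2 hK hU0 hf (L a).P (L b).P ((L a).ok y hy.1)
      ((L b).ok y hy.2)
    obtain ⟨σ, hσ⟩ := (L a).exists_perm (L b) hy.1 hy.2
    refine ⟨A, σ, hA, fun k => ?_⟩
    have h1 : f ((L a).s k y) = y := ((L a).sec k y hy.1).2
    have h2 := (L a).wedge_s (k := k) hy.1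
    have h3 := (L b).wedge_s (k := σ k) hy.2
    rw [hσ] at h3
    have h4 := hA _ h1
    have h5 : (L a).P.c ((L a).s k y) ≠ 0 := (L a).P.c_ne ((L a).ok_s hy.1)
    have h6 : (L b).P.c ((L a).s k y) ≠ 0 :=
      (L b).P.c_ne (by rw [h1]; exact (L b).ok y hy.2)
    have h7 : A ((L a).P.c ((L a).s k y)) ≠ 0 := fun h => h5 (by simpa using h)
    exact wedge_trans h7 (wedge_trans h6 (wedge_comm_zero h3) h4)
      (wedge_map h5 ((L a).pt_ne hy.1) h2)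
  marked a x hx D hD hxD := by
    obtain ⟨k, hk⟩ := (L a).mark x hx D hD hxD
    refine ⟨k, ?_⟩
    have := (L a).wedge_s (k := k) hx
    rwa [← hk] at this
  disjoint x hx D hD D' hD' h h' := by
    by_contra hne
    exact hx (het.2 D hD D' hD' hne x ⟨h, h'⟩)
  weight a k x hx h D hD hxD := by
    have h1 := (L a).eq_s hU0 hx h
    obtain ⟨D', hD', hδ, h2⟩ := (L a).wt k _ hx
    rw [← h1] at h2
    have h3 : x ∈ D' := h2.self_of_nhds.2 h1
    have h4 : D = D' := by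
      by_contra hne
      exact (L a).sub hx (het.2 D hD D' hD' hne x ⟨hxD, h3⟩)
    rw [h4, hδ]

/-- **G0**: genus zero. -/
theorem g0 (hD0 : D0Stmt) (hU0 : U0Stmt) (hC2 : C2Stmt) (hK : KStmt) (hM : MStmt)
    {f : Z → Y} {S : Set Y} {Δ : Set Z → ℝ}
    (hf : ContMDiff 𝓘(ℂ, Cm (p + 1)) 𝓘(ℂ, Cm p) ω f)
    (hpf : IsProperFibration (n := p + 1) (p := p) f S) (hconn : IsPreconnected Sᶜ)
    (hfin : {D | Δ D ≠ 0}.Finite) (hcl : ∀ D, Δ D ≠ 0 → IsClosed D)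
    (het : IsEtale (n := p + 1) (p := p) f S Δ) {B : Matrix (Fin 0) (Fin 0) ℝ}
    (hL : ∀ y₀ ∉ S, ∃ L : Loc (d := p + 1) (p := p) f B, y₀ ∈ L.χ.source ∧ L.χ y₀ ∈ L.𝓕.T) :
    IsFamilyOfCurves (Cm (p + 1)) (Cm p) f S Δ := by
  obtain ⟨r, δ, hs⟩ := hM p Z Y f S Δ hf hpf hconn hfin hcl het
  have key : ∀ a : {y : Y // y ∉ S}, ∃ L : LineLoc (p := p) f S Δ B δ, a.1 ∈ L.U := by
    rintro ⟨y₀, hy₀⟩
    obtain ⟨L, h1, h2⟩ := hL y₀ hy₀
    obtain ⟨P, rfl, h3⟩ := exists_ploc hD0 L h2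
    obtain ⟨U, s, a1, a2, a3, a4, a5, a6, a7⟩ := hs y₀ hy₀
    exact exists_lineLoc hU0 hf P ⟨h1, h3⟩ a1 a2 a3 a4 a5 a6 a7
  choose L hLU using key
  exact Or.inr (Or.inr ⟨r, δ, {y : Y // y ∉ S}, _, _, _, isLineFamily hU0 hC2 hK hf het L hLU⟩)

end

end Vale.Agent.P281.H511
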