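import Vale.Agent.P281.H511.Change
import Vale.Agent.P281.ELL.CovLocal

/-!
# P281, theorem T-D (helper511): genus zero, `IsLineFamily`
-/

open Set Filter Metric Vale.Agent.P281 Vale.Agent.P281.H713 Vale.Agent.P281.H64
open scoped Topology ContDiff Manifold ComplexConjugate

set_option linter.unusedSectionVars false

noncomputable section

namespace Vale.Agent.P281.H511

/-! ### algebra of `wedge` -/

theorem wedge_comm_zero {u v : ℂ × ℂ} (h : J.wedge u v = 0) : J.wedge v u = 0 := by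
  simp only [J.wedge] at h ⊢
  linear_combination -h

theorem wedge_trans {u v w : ℂ × ℂ} (hv : v ≠ 0) (h1 : J.wedge u v = 0) (h2 : J.wedge v w = 0) :
    J.wedge u w = 0 := ELL.wedge_zero_of hv (wedge_comm_zero h1) h2

theorem exists_smul_of_wedge {u v : ℂ × ℂ} (hu : u ≠ 0) (hv : v ≠ 0) (h : J.wedge u v = 0) :
    ∃ c : ℂ, c ≠ 0 ∧ v = c • u := by
  simp only [J.wedge] at h
  by_cases h1 : u.1 = 0
  · have h2 : u.2 ≠ 0 := fun h2 => hu (Prod.ext h1 h2)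
    have h3 : v.1 = 0 := by
      rw [h1, zero_mul, zero_sub, neg_eq_zero] at h
      exact (mul_eq_zero.1 h).resolve_left h2
    have h4 : v.2 ≠ 0 := fun h4 => hv (Prod.ext h3 h4)
    refine ⟨v.2 / u.2, div_ne_zero h4 h2, Prod.ext ?_ ?_⟩
    · simp [h1, h3]
    · simp only [Prod.smul_snd, smul_eq_mul]
      field_simp
  · have h4 : v.1 ≠ 0 := by
      intro h4
      rw [h4, mul_zero, sub_zero] at h
      exact hv (Prod.ext h4 ((mul_eq_zero.1 h).resolve_left h1))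
    refine ⟨v.1 / u.1, div_ne_zero h4 h1, Prod.ext ?_ ?_⟩
    · simp only [Prod.smul_fst, smul_eq_mul]
      field_simp
    · simp only [Prod.smul_snd, smul_eq_mul]
      field_simp
      linear_combination h

theorem wedge_map {A : (ℂ × ℂ) ≃ₗ[ℂ] (ℂ × ℂ)} {u v : ℂ × ℂ} (hu : u ≠ 0) (hv : v ≠ 0)
    (h : J.wedge u v = 0) : J.wedge (A u) (A v) = 0 := by
  obtain ⟨c, -, rfl⟩ := exists_smul_of_wedge hu hv h
  rw [map_smul]
  simp only [J.wedge, Prod.smul_fst, Prod.smul_snd, smul_eq_mul]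
  ring

theorem exists_ker {p : ℕ} (A : Cm (p + 1) →L[ℂ] Cm p) : ∃ ξ : Cm (p + 1), ξ ≠ 0 ∧ A ξ = 0 := by
  by_contra hcon
  push Not at hcon
  have h1 : Function.Injective (A : Cm (p + 1) →ₗ[ℂ] Cm p) := by
    rw [injective_iff_map_eq_zero]
    intro ξ hξ
    by_contra h0
    exact hcon ξ h0 hξ
  have h2 := LinearMap.finrank_le_finrank_of_injective h1
  simp only [Module.finrank_fin_fun] at h2
  omega

section
variable {p : ℕ} {Z Y : Type} [TopologicalSpace Z] [T2Space Z] [ChartedSpace (Cm (p + 1)) Z]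
  [IsManifold 𝓘(ℂ, Cm (p + 1)) ω Z] [TopologicalSpace Y] [T2Space Y] [ChartedSpace (Cm p) Y]
  [IsManifold 𝓘(ℂ, Cm p) ω Y]

/-- The local data for the line family: coordinates, sections, and their lifts. -/
structure LineLoc (f : Z → Y) (S : Set Y) (Δ : Set Z → ℝ) (B : Matrix (Fin 0) (Fin 0) ℝ)
    {r : ℕ} (δ : Fin r → ℝ) where
  P : PLoc (d := p + 1) (p := p) f B
  U : Set Y
  s : Fin r → Y → Z
  G : Fin r → Z → ℂ × ℂ
  isOpen : IsOpen U
  ok : ∀ y ∈ U, P.Ok y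
  sub : U ⊆ Sᶜ
  sec : ∀ k, ∀ y ∈ U, ContMDiffAt 𝓘(ℂ, Cm p) 𝓘(ℂ, Cm (p + 1)) ω (s k) y ∧ f (s k y) = y
  disj : ∀ k l, ∀ y ∈ U, s k y = s l y → k = l
  mark : ∀ x, f x ∈ U → ∀ D ∈ horizontal f S Δ, x ∈ D → ∃ k, x = s k (f x)
  wt : ∀ k, ∀ y ∈ U, ∃ D ∈ horizontal f S Δ, Δ D = δ k ∧ ∀ᶠ x in 𝓝 (s k y), x ∈ D ↔ x = s k (f x)
  G1 : ∀ k, ∀ y ∈ U, HolV (Cm (p + 1)) (fun z => (G k z).1) (s k y)
  G2 : ∀ k, ∀ y ∈ U, HolV (Cm (p + 1)) (fun z => (G k z).2) (s k y)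
  Gne : ∀ k, ∀ y ∈ U, G k (s k y) ≠ 0
  Gw : ∀ k, ∀ y ∈ U, J.wedge (P.c (s k y)) (G k (s k y)) = 0

variable {f : Z → Y} {S : Set Y} {Δ : Set Z → ℝ} {B : Matrix (Fin 0) (Fin 0) ℝ} {r : ℕ}
  {δ : Fin r → ℝ}

theorem exists_lineLoc (hU0 : U0Stmt) (hf : ContMDiff 𝓘(ℂ, Cm (p + 1)) 𝓘(ℂ, Cm p) ω f)
    (P : PLoc (d := p + 1) (p := p) f B) {y₀ : Y} (hy₀ : P.Ok y₀) {U : Set Y}
    {s : Fin r → Y → Z} (hU : IsOpen U) (hyU : y₀ ∈ U) (hUS : U ⊆ Sᶜ)
    (hs : ∀ k, ∀ y ∈ U, ContMDiffAt 𝓘(ℂ, Cm p) 𝓘(ℂ, Cm (p + 1)) ω (s k) y ∧ f (s k y) = y)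
    (hd : ∀ k l, ∀ y ∈ U, s k y = s l y → k = l)
    (hm : ∀ x, f x ∈ U → ∀ D ∈ horizontal f S Δ, x ∈ D → ∃ k, x = s k (f x))
    (hw : ∀ k, ∀ y ∈ U, ∃ D ∈ horizontal f S Δ, Δ D = δ k ∧
        ∀ᶠ x in 𝓝 (s k y), x ∈ D ↔ x = s k (f x)) :
    ∃ L : LineLoc (p := p) f S Δ B δ, y₀ ∈ L.U := by
  have hok : ∀ k, P.Ok (f (s k y₀)) := fun k => by rw [(hs k y₀ hyU).2]; exact hy₀
  choose G hG using fun k => P.exists_lift hU0 hf (hok k)
  have hcs : ∀ k, ContinuousAt (s k) y₀ := fun k => (hs k y₀ hyU).1.continuousAt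
  have h1 : ∀ k, ∀ᶠ y in 𝓝 y₀, HolV (Cm (p + 1)) (fun z => (G k z).1) (s k y) := fun k =>
    (hcs k).eventually (hG k).h1.eventually
  have h2 : ∀ k, ∀ᶠ y in 𝓝 y₀, HolV (Cm (p + 1)) (fun z => (G k z).2) (s k y) := fun k =>
    (hcs k).eventually (hG k).h2.eventually
  have h3 : ∀ k, ∀ᶠ y in 𝓝 y₀, G k (s k y) ≠ 0 := fun k => by
    have hc : ContinuousAt (fun z => ((G k z).1, (G k z).2)) (s k y₀) :=
      (hG k).h1.continuousAt.prodMk (hG k).h2.continuousAt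
    exact (hcs k).eventually (hc.eventually_ne (hG k).ne)
  have h4 : ∀ k, ∀ᶠ y in 𝓝 y₀, J.wedge (P.c (s k y)) (G k (s k y)) = 0 := fun k =>
    (hcs k).eventually (hG k).ev
  obtain ⟨V, hV, hVo, hyV⟩ := eventually_nhds_iff.1 ((((eventually_all.2 h1).and
    (eventually_all.2 h2)).and ((eventually_all.2 h3).and (eventually_all.2 h4))).and
    ((hU.eventually_mem hyU).and (P.isOpen_ok.eventually_mem hy₀)))
  exact ⟨{
    P := P
    U := V
    s := s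
    G := G
    isOpen := hVo
    ok := fun y hy => (hV y hy).2.2
    sub := fun y hy => hUS (hV y hy).2.1
    sec := fun k y hy => hs k y (hV y hy).2.1
    disj := fun k l y hy => hd k l y (hV y hy).2.1
    mark := fun x hx => hm x (hV _ hx).2.1
    wt := fun k y hy => hw k y (hV y hy).2.1
    G1 := fun k y hy => (hV y hy).1.1.1 k
    G2 := fun k y hy => (hV y hy).1.1.2 k
    Gne := fun k y hy => (hV y hy).1.2.1 k
    Gw := fun k y hy => (hV y hy).1.2.2 k }, hyV⟩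

namespace LineLoc

variable (L : LineLoc (p := p) f S Δ B δ)

/-- homogeneous coordinates of the sections -/
def pt (k : Fin r) (y : Y) : ℂ × ℂ := L.G k (L.s k y)

theorem pt_ne {k : Fin r} {y : Y} (hy : y ∈ L.U) : L.pt k y ≠ 0 := L.Gne k y hy

theorem wedge_s {k : Fin r} {y : Y} (hy : y ∈ L.U) : J.wedge (L.P.c (L.s k y)) (L.pt k y) = 0 :=
  L.Gw k y hy

theorem ok_s {k : Fin r} {y : Y} (hy : y ∈ L.U) : L.P.Ok (f (L.s k y)) := by
  rw [(L.sec k y hy).2]; exact L.ok y hy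

/-- the points with coordinate `p k` are on the section `s k` -/
theorem eq_s (hU0 : U0Stmt) {k : Fin r} {x : Z} (hx : f x ∈ L.U)
    (h : J.wedge (L.P.c x) (L.pt k (f x)) = 0) : x = L.s k (f x) := by
  refine L.P.c_inj hU0 (L.ok _ hx) (L.sec k _ hx).2.symm ?_
  exact wedge_trans (L.pt_ne hx) h (wedge_comm_zero (L.wedge_s hx))

theorem hol_pt {k : Fin r} {y : Y} (hy : y ∈ L.U) :
    HolV (Cm p) (fun y => (L.pt k y).1) y ∧ HolV (Cm p) (fun y => (L.pt k y).2) y :=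
  ⟨HolV.comp (E' := Cm (p + 1)) (h := fun z => (L.G k z).1) (L.G1 k y hy) (L.sec k y hy).1,
    HolV.comp (E' := Cm (p + 1)) (h := fun z => (L.G k z).2) (L.G2 k y hy) (L.sec k y hy).1⟩

/-- the points of the horizontal divisors -/
theorem mem_iff {y : Y} (hy : y ∈ L.U) (x : Z) :
    (f x = y ∧ ∃ D ∈ horizontal f S Δ, x ∈ D) ↔ ∃ k, x = L.s k y := by
  constructor
  · rintro ⟨rfl, D, hD, hx⟩
    exact L.mark x hy D hD hx
  · rintro ⟨k, rfl⟩
    obtain ⟨D, hD, -, h⟩ := L.wt k y hy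
    refine ⟨(L.sec k y hy).2, D, hD, h.self_of_nhds.2 ?_⟩
    rw [(L.sec k y hy).2]

/-- two enumerations of the points of the horizontal divisors -/
theorem exists_perm (L' : LineLoc (p := p) f S Δ B δ) {y : Y} (hy : y ∈ L.U) (hy' : y ∈ L'.U) :
    ∃ σ : Equiv.Perm (Fin r), ∀ k, L'.s (σ k) y = L.s k y := by
  have h1 : ∀ k, ∃ l, L.s k y = L'.s l y := fun k =>
    (L'.mem_iff hy' _).1 ((L.mem_iff hy _).2 ⟨k, rfl⟩)
  choose σ hσ using h1
  have h2 : Function.Injective σ := by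
    intro k l h
    exact L.disj k l y hy (by rw [hσ k, hσ l, h])
  exact ⟨Equiv.ofBijective σ (Finite.injective_iff_bijective.1 h2), fun k => (hσ k).symm⟩

/-- the local equation -/
theorem lift (hU0 : U0Stmt) (hf : ContMDiff 𝓘(ℂ, Cm (p + 1)) 𝓘(ℂ, Cm p) ω f) {x : Z}
    (hx : f x ∈ L.U) {G : Z → ℂ × ℂ} (hG : PLoc.LiftAt (d := p + 1) (p := p) f L.P.c x G)
    {k : Fin r} (hk : J.wedge (G x) (L.pt k (f x)) = 0) :
    ∃ D ∈ horizontal f S Δ, ∃ u : Z → ℂ, J.IsLocalEq (Cm (p + 1)) D u x ∧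
      (∀ᶠ z in 𝓝 x, J.wedge (G z) (L.pt k (f z)) = u z ^ 1) ∧
      ∀ ξ : Cm (p + 1), mfderiv 𝓘(ℂ, Cm (p + 1)) 𝓘(ℂ, Cm p) f x ξ = 0 →
        J.dif (Cm (p + 1)) u x ξ = 0 → ξ = 0 := by
  have hcx : L.P.c x ≠ 0 := L.P.c_ne (L.ok _ hx)
  have hxs : x = L.s k (f x) :=
    L.eq_s hU0 hx (wedge_trans hG.ne hG.ev.self_of_nhds hk)
  obtain ⟨D, hD, hδ, hDs⟩ := L.wt k _ hx
  rw [← hxs] at hDs
  -- the function
  set p1 : Y → ℂ := fun y => (L.pt k y).1 with hp1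
  set p2 : Y → ℂ := fun y => (L.pt k y).2 with hp2
  have hfM : HolM (Cm (p + 1)) (Cm p) f x := hf x
  have hP1 : HolV (Cm (p + 1)) (fun z => p1 (f z)) x :=
    HolV.comp (E' := Cm p) (h := p1) (L.hol_pt hx).1 hfM
  have hP2 : HolV (Cm (p + 1)) (fun z => p2 (f z)) x :=
    HolV.comp (E' := Cm p) (h := p2) (L.hol_pt hx).2 hfM
  set u : Z → ℂ := fun z => J.wedge (G z) (L.pt k (f z)) with hu
  have huV : HolV (Cm (p + 1)) u x :=
    ELL.hol_wedge (v := G) (w := fun z => L.pt k (f z)) hG.h1 hG.h2 hP1 hP2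
  obtain ⟨c, hc, hcp⟩ := exists_smul_of_wedge hG.ne (L.pt_ne hx (k := k)) hk
  -- its differential
  have hdu : ∀ ξ : Cm (p + 1), dM (Cm (p + 1)) (Cm p) f x ξ = 0 → dif (Cm (p + 1)) u x ξ =
      -c * ((G x).1 * dif (Cm (p + 1)) (fun z => (G z).2) x ξ -
        (G x).2 * dif (Cm (p + 1)) (fun z => (G z).1) x ξ) := by
    intro ξ hξ
    have e1 : dif (Cm (p + 1)) (fun z => p1 (f z)) x ξ = 0 := by
      rw [dif_comp (g := p1) (L.hol_pt hx).1 hfM]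
      show dif (Cm p) p1 (f x) (dM (Cm (p + 1)) (Cm p) f x ξ) = 0
      rw [hξ, map_zero]
    have e2 : dif (Cm (p + 1)) (fun z => p2 (f z)) x ξ = 0 := by
      rw [dif_comp (g := p2) (L.hol_pt hx).2 hfM]
      show dif (Cm p) p2 (f x) (dM (Cm (p + 1)) (Cm p) f x ξ) = 0
      rw [hξ, map_zero]
    have e3 : u = fun z => (G z).1 * p2 (f z) + (-1 * ((G z).2 * p1 (f z))) := by
      funext z
      show (G z).1 * p2 (f z) - (G z).2 * p1 (f z) = _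
      ring
    have hA := hG.h1.mul hP2
    have hB := hG.h2.mul hP1
    have hC := (HolV.const (E := Cm (p + 1)) (-1 : ℂ) x).mul hB
    rw [e3, ELL.dif_addC hA hC]
    show dif (Cm (p + 1)) (fun z => (G z).1 * p2 (f z)) x ξ +
      dif (Cm (p + 1)) (fun z => -1 * ((G z).2 * p1 (f z))) x ξ = _
    have h0 : dif (Cm (p + 1)) (fun _ : Z => (-1 : ℂ)) x = 0 := mfderiv_const
    rw [ELL.dif_mulC hG.h1 hP2, ELL.dif_mulC (HolV.const (E := Cm (p + 1)) (-1 : ℂ) x) hB,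
      ELL.dif_mulC hG.h2 hP1, e1, e2, h0, zero_apply]
    have e4 : p1 (f x) = c * (G x).1 := congrArg Prod.fst hcp
    have e5 : p2 (f x) = c * (G x).2 := congrArg Prod.snd hcp
    rw [e4, e5]
    ring
  have hker : ∀ ξ : Cm (p + 1), dM (Cm (p + 1)) (Cm p) f x ξ = 0 →
      dif (Cm (p + 1)) u x ξ = 0 → ξ = 0 := by
    intro ξ h1 h2
    rw [hdu ξ h1] at h2
    exact hG.imm ξ h1 ((mul_eq_zero.1 h2).resolve_left (neg_ne_zero.2 hc))
  have hdif : dif (Cm (p + 1)) u x ≠ 0 := by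
    intro h0
    obtain ⟨ξ, h1, h2⟩ := exists_ker (dM (Cm (p + 1)) (Cm p) f x)
    exact h1 (hker ξ h2 (by rw [h0]; rfl))
  -- near `x`
  have hev : ∀ᶠ z in 𝓝 x, z ∈ D ↔ u z = 0 := by
    have hfU : ∀ᶠ z in 𝓝 x, f z ∈ L.U :=
      hf.continuous.continuousAt.eventually (L.isOpen.mem_nhds hx)
    have hGne : ∀ᶠ z in 𝓝 x, G z ≠ 0 := by
      have hc : ContinuousAt (fun z => ((G z).1, (G z).2)) x :=
        hG.h1.continuousAt.prodMk hG.h2.continuousAt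
      exact hc.eventually_ne hG.ne
    filter_upwards [hDs, hfU, hGne, hG.ev] with z a1 a2 a3 a4
    rw [a1]
    constructor
    · intro h
      have h5 := L.wedge_s (k := k) a2
      rw [← h] at h5
      exact wedge_trans (L.P.c_ne (L.ok _ a2)) (wedge_comm_zero a4) h5
    · intro h
      exact L.eq_s hU0 a2 (wedge_trans a3 a4 h)
  refine ⟨D, hD, u, ?_, Eventually.of_forall fun z => (pow_one _).symm, hker⟩
  exact IsLocalEq.of_dif_ne huV hev hdif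

end LineLoc

end

end Vale.Agent.P281.H511
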