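import Vale.Agent.P281.H64.Base2
import Vale.Agent.P281.ELL.DefsC

/-!
# P281, theorem T-D (helper511): meromorphic functions with one simple pole differ by a
projective map
-/

open Set Filter Metric Vale.Agent.P281 Vale.Agent.P281.H64
open scoped Topology ContDiff ComplexConjugate

noncomputable section

namespace Vale.Agent.P281.H511

theorem analyticAt_dslope {g : ℂ → ℂ} {z : ℂ} (hg : AnalyticAt ℂ g z) :
    AnalyticAt ℂ (dslope g z) z := by
  obtain ⟨p, hp⟩ := hg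
  exact ⟨_, hp.has_fpower_series_dslope_fslope⟩

/-- a simple pole -/
def PForm (F : ℂ → ℂ) (z : ℂ) : Prop :=
  ∃ g : ℂ → ℂ, AnalyticAt ℂ g z ∧ g z ≠ 0 ∧ ∀ᶠ u in 𝓝[≠] z, F u = (u - z)⁻¹ * g u

theorem PForm.comp {F θ : ℂ → ℂ} {z w : ℂ} (h : PForm F w) (hθ : AnalyticAt ℂ θ z)
    (h0 : θ z = w) (hd : deriv θ z ≠ 0) : PForm (fun u => F (θ u)) z := by
  obtain ⟨g, hg, hgw, hF⟩ := h
  have hφ := analyticAt_dslope hθ
  have hφz : dslope θ z z ≠ 0 := by rw [dslope_same]; exact hd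
  have hsub : ∀ u, θ u - w = (u - z) * dslope θ z u := by
    intro u
    have := sub_smul_dslope θ z u
    rw [smul_eq_mul, h0] at this
    exact this.symm
  have hφne : ∀ᶠ u in 𝓝 z, dslope θ z u ≠ 0 := hφ.continuousAt.eventually_ne hφz
  have ht : Tendsto θ (𝓝[≠] z) (𝓝[≠] w) := by
    rw [tendsto_nhdsWithin_iff]
    refine ⟨?_, ?_⟩
    · rw [← h0]
      exact hθ.continuousAt.mono_left nhdsWithin_le_nhds
    · filter_upwards [nhdsWithin_le_nhds hφne, self_mem_nhdsWithin] with u hu hu' he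
      have h1 := hsub u
      rw [he, sub_self] at h1
      rcases mul_eq_zero.1 h1.symm with h2 | h2
      · exact hu' (sub_eq_zero.1 h2)
      · exact hu h2
  refine ⟨fun u => (dslope θ z u)⁻¹ * g (θ u), ?_, ?_, ?_⟩
  · exact (hφ.inv hφz).mul (by rw [← h0] at hg; exact hg.fun_comp hθ)
  · show (dslope θ z z)⁻¹ * g (θ z) ≠ 0
    rw [h0]
    exact mul_ne_zero (inv_ne_zero hφz) hgw
  · filter_upwards [ht.eventually hF] with u hu
    rw [hu, hsub, mul_inv]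
    ring

section
variable {E Γ : Type} [TopologicalSpace E] [Group Γ] [MulAction Γ E]

/-- `m` is a meromorphic function on the surface, with one simple pole, at the image of `e₀` -/
structure SPole (S : Sheets E Γ) (m : E → ℂ) (e₀ : E) : Prop where
  inv : ∀ (γ : Γ) e, m (γ • e) = m e
  hol : ∀ j, ∀ z ∈ ball (0 : ℂ) 3, (∀ γ : Γ, γ • e₀ ≠ S.σ j z) →
    AnalyticAt ℂ (fun z => m (S.σ j z)) z
  pole : ∀ j, ∀ z ∈ ball (0 : ℂ) 3, ∀ γ : Γ, γ • e₀ = S.σ j z → PForm (fun z => m (S.σ j z)) z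

theorem orbit_unique (S : Sheets E Γ) {e₀ : E} {j : Fin S.N} {u u' : ℂ} (hu : u ∈ ball (0 : ℂ) 3)
    (hu' : u' ∈ ball (0 : ℂ) 3) {γ γ' : Γ} (h : γ • e₀ = S.σ j u) (h' : γ' • e₀ = S.σ j u') :
    u = u' := by
  refine (S.inj j u hu u' hu' (γ' * γ⁻¹) ?_).2
  rw [← h, ← h', mul_smul, inv_smul_smul]

theorem no_orbit (S : Sheets E Γ) {e₀ : E} {j : Fin S.N} {z : ℂ} (hz : z ∈ ball (0 : ℂ) 3)
    (h : ∀ γ : Γ, γ • e₀ ≠ S.σ j z) : ∀ᶠ u in 𝓝 z, ∀ γ : Γ, γ • e₀ ≠ S.σ j u := by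
  by_cases h1 : ∃ u₁ ∈ ball (0 : ℂ) 3, ∃ γ : Γ, γ • e₀ = S.σ j u₁
  · obtain ⟨u₁, hu₁, γ₁, h2⟩ := h1
    have hne : z ≠ u₁ := by
      rintro rfl
      exact h γ₁ h2
    filter_upwards [isOpen_ball.mem_nhds hz, isOpen_ne.mem_nhds hne] with u a b γ c
    exact b (orbit_unique S a hu₁ c h2)
  · push Not at h1
    filter_upwards [isOpen_ball.mem_nhds hz] with u a γ c
    exact h1 u a γ c

theorem no_orbit' (S : Sheets E Γ) {e₀ : E} {j : Fin S.N} {z : ℂ} (hz : z ∈ ball (0 : ℂ) 3)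
    {γ₁ : Γ} (h : γ₁ • e₀ = S.σ j z) : ∀ᶠ u in 𝓝[≠] z, ∀ γ : Γ, γ • e₀ ≠ S.σ j u := by
  filter_upwards [nhdsWithin_le_nhds (isOpen_ball.mem_nhds hz), self_mem_nhdsWithin]
    with u a b γ c
  exact b (orbit_unique S a hz c h)

/-- a function which is holomorphic in some sheet near each point -/
theorem add_of_local {S : Sheets E Γ} {h : E → ℂ} (hinv : ∀ (γ : Γ) e, h (γ • e) = h e)
    (hloc : ∀ j, ∀ z ∈ ball (0 : ℂ) 1, AnalyticAt ℂ (fun u => h (S.σ j u)) z) :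
    Add S h (fun _ => 0) where
  add γ e := by rw [hinv, add_zero]
  hol i := by
    intro w hw
    obtain ⟨γ, j, z, hz, he⟩ := S.cover (S.σ i w)
    obtain ⟨θ, h1, h2, h3⟩ := S.hol i j w hw z (Sheets.mem3 hz) γ he.symm
    have h4 : AnalyticAt ℂ (fun u => h (S.σ i u)) w := by
      have h5 : AnalyticAt ℂ (fun u => h (S.σ j (θ u))) w :=
        AnalyticAt.fun_comp (f := θ) (g := fun u => h (S.σ j u))
          (by rw [h2]; exact hloc j z (mem_ball_zero_iff.2 hz)) h1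
      refine h5.congr ?_
      filter_upwards [h3] with u hu
      rw [hu, hinv]
    exact h4.differentiableAt.differentiableWithinAt

/-- transfer of a simple pole to other sheets of the same surface -/
theorem SPole.of_compat {S S₁ : Sheets E Γ} (hc : HolCompat S S₁) {m : E → ℂ} {e₀ : E}
    (H : SPole S₁ m e₀) : SPole S m e₀ where
  inv := H.inv
  hol i z hz h := by
    obtain ⟨γ, j, w, hw, he⟩ := S₁.cover (S.σ i z)
    obtain ⟨θ, h1, h2, -, h3⟩ := hc i j z hz w (Sheets.mem3 hw) γ he.symm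
    have h5 : AnalyticAt ℂ (fun u => m (S₁.σ j (θ u))) z := by
      refine AnalyticAt.fun_comp (f := θ) (g := fun u => m (S₁.σ j u)) ?_ h1
      rw [h2]
      refine H.hol j w (Sheets.mem3 hw) fun γ' h4 => h (γ * γ') ?_
      rw [mul_smul, h4, he]
    refine h5.congr ?_
    filter_upwards [h3] with u hu
    rw [hu, H.inv]
  pole i z hz γ₁ h := by
    obtain ⟨γ, j, w, hw, he⟩ := S₁.cover (S.σ i z)
    obtain ⟨θ, h1, h2, hd, h3⟩ := hc i j z hz w (Sheets.mem3 hw) γ he.symm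
    have h4 := (H.pole j w (Sheets.mem3 hw) (γ⁻¹ * γ₁) (by
      rw [mul_smul, h, ← he, inv_smul_smul])).comp h1 h2 hd
    obtain ⟨g, a, b, c⟩ := h4
    refine ⟨g, a, b, ?_⟩
    filter_upwards [c, nhdsWithin_le_nhds h3] with u hu hu'
    rw [← hu, hu', H.inv]

theorem SPole.pull {E' Γ' : Type} [TopologicalSpace E'] [Group Γ'] [MulAction Γ' E']
    {S' : Sheets E' Γ'} {τ : E ≃ₜ E'} {ρ : Γ ≃* Γ'} {hτ : ∀ γ e, τ (γ • e) = ρ γ • τ e}
    {m : E' → ℂ} {e₀ : E'} (H : SPole S' m e₀) :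
    SPole (S'.pull τ ρ hτ) (fun e => m (τ e)) (τ.symm e₀) := by
  have hσ : ∀ i, (fun z => m (τ ((S'.pull τ ρ hτ).σ i z))) = fun z => m (S'.σ i z) := by
    intro i
    funext z
    show m (τ (τ.symm (S'.σ i z))) = _
    rw [τ.apply_symm_apply]
  refine ⟨fun γ e => by rw [hτ, H.inv], fun j z hz h => ?_, fun j z hz γ h => ?_⟩
  · rw [hσ]
    refine H.hol j z hz fun γ h1 => h (ρ.symm γ) ?_
    apply τ.injective
    show τ (ρ.symm γ • τ.symm e₀) = τ (τ.symm (S'.σ j z))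
    rw [hτ, τ.apply_symm_apply, τ.apply_symm_apply, ρ.apply_symm_apply, h1]
  · rw [hσ]
    refine H.pole j z hz (ρ γ) ?_
    have h1 : τ (γ • τ.symm e₀) = τ (τ.symm (S'.σ j z)) := congrArg τ h
    rw [hτ, τ.apply_symm_apply, τ.apply_symm_apply] at h1
    exact h1

variable (Γ) in
open Classical in
/-- homogeneous coordinates given by `m` -/
def crd (m : E → ℂ) (e₀ e : E) : ℂ × ℂ := if ∃ γ : Γ, γ • e₀ = e then (1, 0) else (m e, 1)

/-- the linear map with given matrix -/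
def linE (α β γ δ : ℂ) (h : α * δ - β * γ ≠ 0) : (ℂ × ℂ) ≃ₗ[ℂ] (ℂ × ℂ) where
  toFun v := (α * v.1 + β * v.2, γ * v.1 + δ * v.2)
  map_add' v w := by ext <;> simp <;> ring
  map_smul' c v := by ext <;> simp <;> ring
  invFun v := ((α * δ - β * γ)⁻¹ * (δ * v.1 - β * v.2), (α * δ - β * γ)⁻¹ * (α * v.2 - γ * v.1))
  left_inv v := by
    have h1 := inv_mul_cancel₀ h
    ext
    · show (α * δ - β * γ)⁻¹ * (δ * (α * v.1 + β * v.2) - β * (γ * v.1 + δ * v.2)) = v.1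
      linear_combination v.1 * h1
    · show (α * δ - β * γ)⁻¹ * (α * (γ * v.1 + δ * v.2) - γ * (α * v.1 + β * v.2)) = v.2
      linear_combination v.2 * h1
  right_inv v := by
    have h1 := inv_mul_cancel₀ h
    ext
    · show α * ((α * δ - β * γ)⁻¹ * (δ * v.1 - β * v.2)) +
        β * ((α * δ - β * γ)⁻¹ * (α * v.2 - γ * v.1)) = v.1
      linear_combination v.1 * h1
    · show γ * ((α * δ - β * γ)⁻¹ * (δ * v.1 - β * v.2)) +
        δ * ((α * δ - β * γ)⁻¹ * (α * v.2 - γ * v.1)) = v.2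
      linear_combination v.2 * h1

theorem linE_apply (α β γ δ : ℂ) (h : α * δ - β * γ ≠ 0) (v : ℂ × ℂ) :
    linE α β γ δ h v = (α * v.1 + β * v.2, γ * v.1 + δ * v.2) := rfl

variable {S : Sheets E Γ}

/-- the same pole -/
theorem mobius_same (hconst : ∀ h : E → ℂ, Add S h (fun _ => 0) → ∀ e e', h e = h e')
    {m m' : E → ℂ} {e₀ : E} (H : SPole S m e₀) (H' : SPole S m' e₀) :
    ∃ c C : ℂ, c ≠ 0 ∧ ∀ e, (∀ γ : Γ, γ • e₀ ≠ e) → m' e = c * m e + C := by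
  classical
  obtain ⟨γ₀, j₀, z₀, hz₀, he₀⟩ := S.cover e₀
  have hz₀3 := Sheets.mem3 hz₀
  have he₀' : γ₀⁻¹ • e₀ = S.σ j₀ z₀ := by rw [← he₀, inv_smul_smul]
  obtain ⟨g, hg, hg0, hF⟩ := H.pole j₀ z₀ hz₀3 _ he₀'
  obtain ⟨g', hg', hg0', hF'⟩ := H'.pole j₀ z₀ hz₀3 _ he₀'
  set c := g' z₀ / g z₀ with hc
  have hcne : c ≠ 0 := div_ne_zero hg0' hg0
  set G : ℂ → ℂ := fun u => g' u - c * g u with hG
  have hGan : AnalyticAt ℂ G z₀ := hg'.sub (analyticAt_const.mul hg)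
  have hG0 : G z₀ = 0 := by
    show g' z₀ - c * g z₀ = 0
    rw [hc, div_mul_cancel₀ _ hg0, sub_self]
  set h : E → ℂ := fun e => if ∃ γ : Γ, γ • e₀ = e then dslope G z₀ z₀ else m' e - c * m e with hh
  have hne : ∀ e, (∀ γ : Γ, γ • e₀ ≠ e) → h e = m' e - c * m e := by
    intro e he
    rw [hh]
    simp only
    rw [if_neg]
    push Not
    exact he
  have hinv : ∀ (γ : Γ) e, h (γ • e) = h e := by
    intro γ e
    have h1 : (∃ γ' : Γ, γ' • e₀ = γ • e) ↔ ∃ γ' : Γ, γ' • e₀ = e := by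
      constructor
      · rintro ⟨γ', h2⟩
        exact ⟨γ⁻¹ * γ', by rw [mul_smul, h2, inv_smul_smul]⟩
      · rintro ⟨γ', h2⟩
        exact ⟨γ * γ', by rw [mul_smul, h2]⟩
    rw [hh]
    simp only
    rw [H.inv, H'.inv]
    by_cases h2 : ∃ γ' : Γ, γ' • e₀ = e
    · rw [if_pos h2, if_pos (h1.2 h2)]
    · rw [if_neg h2, if_neg (fun h3 => h2 (h1.1 h3))]
  have hadd : Add S h (fun _ => 0) := by
    refine add_of_local hinv fun j z hz => ?_
    have hz3 : z ∈ ball (0 : ℂ) 3 := ball_subset_ball (by norm_num) hz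
    by_cases hp : ∃ γ : Γ, γ • e₀ = S.σ j z
    · obtain ⟨γ₁, h1⟩ := hp
      -- go to the sheet `j₀`
      obtain ⟨θ, a1, a2, a3⟩ := S.hol j j₀ z hz3 z₀ hz₀3 (γ₁ * γ₀) (by
        rw [mul_smul, he₀, h1])
      have hj₀ : AnalyticAt ℂ (fun u => h (S.σ j₀ u)) z₀ := by
        refine (analyticAt_dslope hGan).congr ?_
        have h3 : ∀ᶠ u in 𝓝[≠] z₀, dslope G z₀ u = h (S.σ j₀ u) := by
          filter_upwards [hF, hF', no_orbit' S hz₀3 he₀', self_mem_nhdsWithin] with u b1 b2 b3 b4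
          rw [hne _ b3, b1, b2, dslope_of_ne _ b4, slope_def_field, hG0, sub_zero]
          show (g' u - c * g u) / (u - z₀) = _
          field_simp
        rw [eventually_nhdsWithin_iff] at h3
        filter_upwards [h3] with u hu
        by_cases hu0 : u = z₀
        · rw [hu0]
          rw [hh]
          simp only
          rw [if_pos ⟨_, he₀'⟩]
        · exact hu hu0
      have h5 : AnalyticAt ℂ (fun u => h (S.σ j₀ (θ u))) z :=
        AnalyticAt.fun_comp (f := θ) (g := fun u => h (S.σ j₀ u)) (by rw [a2]; exact hj₀) a1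
      refine h5.congr ?_
      filter_upwards [a3] with u hu
      rw [hu, hinv]
    · push Not at hp
      have h1 := H.hol j z hz3 hp
      have h2 := H'.hol j z hz3 hp
      refine (h2.sub (analyticAt_const.mul h1 (f := fun _ => c))).congr ?_
      filter_upwards [no_orbit S hz3 hp] with u hu
      rw [hne _ hu]
      rfl
  refine ⟨c, h e₀, hcne, fun e he => ?_⟩
  have h1 := hconst h hadd e e₀
  rw [hne e he] at h1
  linear_combination h1

/-- different poles -/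
theorem mobius_diff (hconst : ∀ h : E → ℂ, Add S h (fun _ => 0) → ∀ e e', h e = h e')
    {m m' : E → ℂ} {e₀ e₁ : E} (H : SPole S m e₀) (H' : SPole S m' e₁)
    (hd : ∀ j, ∀ z ∈ ball (0 : ℂ) 3, (∀ γ : Γ, γ • e₀ ≠ S.σ j z) →
      deriv (fun z => m (S.σ j z)) z ≠ 0) (hne : ∀ γ : Γ, γ • e₀ ≠ e₁) :
    ∃ C : ℂ, C ≠ 0 ∧ ∀ e, (∀ γ : Γ, γ • e₀ ≠ e) → (∀ γ : Γ, γ • e₁ ≠ e) →
      (m e - m e₁) * (m' e - m' e₀) = C := by
  classical
  have hne' : ∀ γ : Γ, γ • e₁ ≠ e₀ := fun γ h => hne γ⁻¹ (by rw [← h, inv_smul_smul])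
  obtain ⟨γ₀, j₀, z₀, hz₀, he₀⟩ := S.cover e₀
  have hz₀3 := Sheets.mem3 hz₀
  have he₀' : γ₀⁻¹ • e₀ = S.σ j₀ z₀ := by rw [← he₀, inv_smul_smul]
  obtain ⟨γ₁, j₁, z₁, hz₁, he₁⟩ := S.cover e₁
  have hz₁3 := Sheets.mem3 hz₁
  have he₁' : γ₁⁻¹ • e₁ = S.σ j₁ z₁ := by rw [← he₁, inv_smul_smul]
  obtain ⟨g, hg, hg0, hF⟩ := H.pole j₀ z₀ hz₀3 _ he₀'
  obtain ⟨g', hg', hg0', hF'⟩ := H'.pole j₁ z₁ hz₁3 _ he₁'
  have no0 : ∀ γ : Γ, γ • e₁ ≠ S.σ j₀ z₀ := fun γ h => hne' (γ₀ * γ) (by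
    rw [mul_smul, h, he₀])
  have no1 : ∀ γ : Γ, γ • e₀ ≠ S.σ j₁ z₁ := fun γ h => hne (γ₁ * γ) (by
    rw [mul_smul, h, he₁])
  have hm' : AnalyticAt ℂ (fun u => m' (S.σ j₀ u)) z₀ := H'.hol j₀ z₀ hz₀3 no0
  have hm : AnalyticAt ℂ (fun u => m (S.σ j₁ u)) z₁ := H.hol j₁ z₁ hz₁3 no1
  have hm'0 : m' (S.σ j₀ z₀) = m' e₀ := by rw [← he₀', H'.inv]
  have hm1 : m (S.σ j₁ z₁) = m e₁ := by rw [← he₁', H.inv]
  set a := m e₁ with ha
  set b := m' e₀ with hb
  -- the values at the poles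
  set v₀ : ℂ := g z₀ * dslope (fun u => m' (S.σ j₀ u)) z₀ z₀ with hv₀
  set v₁ : ℂ := g' z₁ * dslope (fun u => m (S.σ j₁ u)) z₁ z₁ with hv₁
  have hv₁ne : v₁ ≠ 0 := by
    rw [hv₁, dslope_same]
    exact mul_ne_zero hg0' (hd j₁ z₁ hz₁3 no1)
  set h : E → ℂ := fun e => if ∃ γ : Γ, γ • e₀ = e then v₀ else
    if ∃ γ : Γ, γ • e₁ = e then v₁ else (m e - a) * (m' e - b) with hh
  have hn : ∀ e, (∀ γ : Γ, γ • e₀ ≠ e) → (∀ γ : Γ, γ • e₁ ≠ e) → h e = (m e - a) * (m' e - b) := by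
    intro e h1 h2
    rw [hh]
    simp only
    rw [if_neg (by push Not; exact h1), if_neg (by push Not; exact h2)]
  have horb : ∀ (γ : Γ) (e e' : E), (∃ γ' : Γ, γ' • e' = γ • e) ↔ ∃ γ' : Γ, γ' • e' = e := by
    intro γ e e'
    constructor
    · rintro ⟨γ', h2⟩
      exact ⟨γ⁻¹ * γ', by rw [mul_smul, h2, inv_smul_smul]⟩
    · rintro ⟨γ', h2⟩
      exact ⟨γ * γ', by rw [mul_smul, h2]⟩
  have hinv : ∀ (γ : Γ) e, h (γ • e) = h e := by
    intro γ e
    rw [hh]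
    simp only [horb, H.inv, H'.inv]
  have hA0 : AnalyticAt ℂ (fun u => h (S.σ j₀ u)) z₀ := by
    have h1 : AnalyticAt ℂ (fun u => g u * dslope (fun u => m' (S.σ j₀ u)) z₀ u -
        a * (m' (S.σ j₀ u) - b)) z₀ :=
      (hg.mul (analyticAt_dslope hm')).sub (analyticAt_const.mul (hm'.sub analyticAt_const))
    refine h1.congr ?_
    have h3 : ∀ᶠ u in 𝓝[≠] z₀, g u * dslope (fun u => m' (S.σ j₀ u)) z₀ u -
        a * (m' (S.σ j₀ u) - b) = h (S.σ j₀ u) := by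
      filter_upwards [hF, no_orbit' S hz₀3 he₀', nhdsWithin_le_nhds (no_orbit S hz₀3 no0),
        self_mem_nhdsWithin] with u b1 b2 b3 b4
      have b5 : u - z₀ ≠ 0 := sub_ne_zero.2 b4
      rw [hn _ b2 b3, b1, dslope_of_ne _ b4, slope_def_field, hm'0]
      field_simp
    rw [eventually_nhdsWithin_iff] at h3
    filter_upwards [h3] with u hu
    by_cases hu0 : u = z₀
    · rw [hu0, hm'0, sub_self, mul_zero, sub_zero]
      rw [hh]
      simp only
      rw [if_pos ⟨_, he₀'⟩]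
    · exact hu hu0
  have hA1 : AnalyticAt ℂ (fun u => h (S.σ j₁ u)) z₁ := by
    have h1 : AnalyticAt ℂ (fun u => g' u * dslope (fun u => m (S.σ j₁ u)) z₁ u -
        b * (m (S.σ j₁ u) - a)) z₁ :=
      (hg'.mul (analyticAt_dslope hm)).sub (analyticAt_const.mul (hm.sub analyticAt_const))
    refine h1.congr ?_
    have h3 : ∀ᶠ u in 𝓝[≠] z₁, g' u * dslope (fun u => m (S.σ j₁ u)) z₁ u -
        b * (m (S.σ j₁ u) - a) = h (S.σ j₁ u) := by
      filter_upwards [hF', no_orbit' S hz₁3 he₁', nhdsWithin_le_nhds (no_orbit S hz₁3 no1),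
        self_mem_nhdsWithin] with u b1 b2 b3 b4
      have b5 : u - z₁ ≠ 0 := sub_ne_zero.2 b4
      rw [hn _ b3 b2, b1, dslope_of_ne _ b4, slope_def_field, hm1]
      field_simp
    rw [eventually_nhdsWithin_iff] at h3
    filter_upwards [h3] with u hu
    by_cases hu0 : u = z₁
    · rw [hu0, hm1, sub_self, mul_zero, sub_zero]
      rw [hh]
      simp only
      rw [if_neg (by push Not; exact no1), if_pos ⟨_, he₁'⟩]
    · exact hu hu0
  have hadd : Add S h (fun _ => 0) := by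
    refine add_of_local hinv fun j z hz => ?_
    have hz3 : z ∈ ball (0 : ℂ) 3 := ball_subset_ball (by norm_num) hz
    by_cases hp : ∃ γ : Γ, γ • e₀ = S.σ j z
    · obtain ⟨γ, h1⟩ := hp
      obtain ⟨θ, a1, a2, a3⟩ := S.hol j j₀ z hz3 z₀ hz₀3 (γ * γ₀) (by rw [mul_smul, he₀, h1])
      have h5 : AnalyticAt ℂ (fun u => h (S.σ j₀ (θ u))) z :=
        AnalyticAt.fun_comp (f := θ) (g := fun u => h (S.σ j₀ u)) (by rw [a2]; exact hA0) a1
      refine h5.congr ?_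
      filter_upwards [a3] with u hu
      rw [hu, hinv]
    · by_cases hp' : ∃ γ : Γ, γ • e₁ = S.σ j z
      · obtain ⟨γ, h1⟩ := hp'
        obtain ⟨θ, a1, a2, a3⟩ := S.hol j j₁ z hz3 z₁ hz₁3 (γ * γ₁) (by rw [mul_smul, he₁, h1])
        have h5 : AnalyticAt ℂ (fun u => h (S.σ j₁ (θ u))) z :=
          AnalyticAt.fun_comp (f := θ) (g := fun u => h (S.σ j₁ u)) (by rw [a2]; exact hA1) a1
        refine h5.congr ?_
        filter_upwards [a3] with u hu
        rw [hu, hinv]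
      · push Not at hp hp'
        have h1 := H.hol j z hz3 hp
        have h2 := H'.hol j z hz3 hp'
        refine ((h1.sub (analyticAt_const (v := a))).mul
          (h2.sub (analyticAt_const (v := b)))).congr ?_
        filter_upwards [no_orbit S hz3 hp, no_orbit S hz3 hp'] with u hu hu'
        rw [hn _ hu hu']
        rfl
  refine ⟨v₁, hv₁ne, fun e h1 h2 => ?_⟩
  have h3 := hconst h hadd e e₁
  rw [hn e h1 h2] at h3
  rw [h3, hh]
  simp only
  rw [if_neg (by push Not; exact hne), if_pos ⟨1, one_smul _ _⟩]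

/-- **the change of homogeneous coordinates** -/
theorem mobius (hconst : ∀ h : E → ℂ, Add S h (fun _ => 0) → ∀ e e', h e = h e')
    {m m' : E → ℂ} {e₀ e₁ : E} (H : SPole S m e₀) (H' : SPole S m' e₁)
    (hd : ∀ j, ∀ z ∈ ball (0 : ℂ) 3, (∀ γ : Γ, γ • e₀ ≠ S.σ j z) →
      deriv (fun z => m (S.σ j z)) z ≠ 0) :
    ∃ A : (ℂ × ℂ) ≃ₗ[ℂ] (ℂ × ℂ), ∀ e, J.wedge (crd Γ m' e₁ e) (A (crd Γ m e₀ e)) = 0 := by
  classical
  by_cases hs : ∃ γ : Γ, γ • e₀ = e₁
  · obtain ⟨γ₁, rfl⟩ := hs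
    have horb : ∀ e : E, (∃ γ : Γ, γ • γ₁ • e₀ = e) ↔ ∃ γ : Γ, γ • e₀ = e := by
      intro e
      constructor
      · rintro ⟨γ, h⟩
        exact ⟨γ * γ₁, by rw [mul_smul, h]⟩
      · rintro ⟨γ, h⟩
        exact ⟨γ * γ₁⁻¹, by rw [mul_smul, inv_smul_smul, h]⟩
    have H'' : SPole S m' e₀ := by
      refine ⟨H'.inv, fun j z hz h => H'.hol j z hz fun γ h1 => ?_, fun j z hz γ h => ?_⟩
      · obtain ⟨γ', h2⟩ := (horb _).1 ⟨γ, h1⟩
        exact h γ' h2
      · obtain ⟨γ', h2⟩ := (horb _).2 ⟨γ, h⟩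
        exact H'.pole j z hz γ' h2
    obtain ⟨c, C, hc, h1⟩ := mobius_same hconst H H''
    refine ⟨linE c C 0 1 (by simpa using hc), fun e => ?_⟩
    rw [linE_apply]
    by_cases he : ∃ γ : Γ, γ • e₀ = e
    · rw [crd, crd, if_pos he, if_pos ((horb e).2 he)]
      simp [J.wedge]
    · have he' := he
      push Not at he'
      rw [crd, crd, if_neg he, if_neg (fun h => he ((horb e).1 h)), h1 e he']
      simp [J.wedge]
  · push Not at hs
    obtain ⟨C, hC, h1⟩ := mobius_diff hconst H H' hd hs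
    set a := m e₁ with ha
    set b := m' e₀ with hb
    refine ⟨linE b (C - b * a) 1 (-a) (by
      have : b * -a - (C - b * a) * 1 = - C := by ring
      rw [this]
      exact neg_ne_zero.2 hC), fun e => ?_⟩
    rw [linE_apply]
    by_cases he : ∃ γ : Γ, γ • e₀ = e
    · have he1 : ¬ ∃ γ : Γ, γ • e₁ = e := by
        rintro ⟨γ, h⟩
        obtain ⟨γ', h'⟩ := he
        exact hs (γ⁻¹ * γ') (by rw [mul_smul, h', ← h, inv_smul_smul])
      obtain ⟨γ', h'⟩ := he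
      rw [crd, crd, if_neg he1, if_pos ⟨γ', h'⟩]
      have : m' e = b := by rw [← h', H'.inv]
      rw [this]
      simp [J.wedge]
    · by_cases he1 : ∃ γ : Γ, γ • e₁ = e
      · obtain ⟨γ', h'⟩ := he1
        rw [crd, crd, if_neg he, if_pos ⟨γ', h'⟩]
        have : m e = a := by rw [← h', H.inv]
        rw [this]
        simp [J.wedge]
      · rw [crd, crd, if_neg he, if_neg he1]
        push Not at he he1
        have h2 := h1 e he he1
        simp only [J.wedge]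
        linear_combination h2

end

end Vale.Agent.P281.H511
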