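import Vale.Agent.P281.H64.Glob
import Vale.Agent.P281.H511.Loc
import Vale.Agent.P281.H511.Mob

/-!
# P281, theorem T-D (helper511): homogeneous coordinates in genus zero
-/

open Set Filter Metric Vale.Agent.P281 Vale.Agent.P281.H713 Vale.Agent.P281.H64
open scoped Topology ContDiff Manifold ComplexConjugate

set_option linter.unusedSectionVars false

noncomputable section

namespace Vale.Agent.P281.H511

/-- Local data in genus `0`: a model, with a meromorphic function with one simple pole. -/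
structure PLoc {d p : ℕ} {Z Y : Type} [TopologicalSpace Z] [ChartedSpace (Cm d) Z]
    [TopologicalSpace Y] [ChartedSpace (Cm p) Y] (f : Z → Y) (B : Matrix (Fin 0) (Fin 0) ℝ) extends
    Loc (d := d) (p := p) f B where
  T' : Set (Cm p)
  hT' : T' ⊆ 𝓕.T
  isOpen' : IsOpen T'
  i₀ : Fin 𝓕.N
  m : Cm p → E → ℂ
  k : Cm p × ℂ → ℂ
  inv : ∀ t ∈ T', ∀ (γ : Γ) e, m t (γ • e) = m t e
  hol : ∀ j, ∀ t ∈ T', ∀ z ∈ ball (0 : ℂ) 3, (∀ γ : Γ, γ • 𝓕.σ i₀ t 0 ≠ 𝓕.σ j t z) →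
    AnalyticAt ℂ (fun q : Cm p × ℂ => m q.1 (𝓕.σ j q.1 q.2)) (t, z)
  kan : ∀ t ∈ T', AnalyticAt ℂ k (t, 0) ∧ ∀ᶠ q in 𝓝 (t, (0 : ℂ)), q.2 ≠ 0 →
    m q.1 (𝓕.σ i₀ q.1 q.2) = q.2⁻¹ + k q

theorem analyticAt_slice {p : ℕ} {g : Cm p × ℂ → ℂ} {t : Cm p} {z : ℂ}
    (h : AnalyticAt ℂ g (t, z)) : AnalyticAt ℂ (fun u => g (t, u)) z :=
  AnalyticAt.fun_comp (f := fun u : ℂ => (t, u)) h (by fun_prop)

theorem eventually_slice {p : ℕ} {P : Cm p × ℂ → Prop} {t : Cm p} {z : ℂ}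
    (h : ∀ᶠ q in 𝓝 (t, z), P q) : ∀ᶠ u in 𝓝 z, P (t, u) := by
  have : Tendsto (fun u : ℂ => (t, u)) (𝓝 z) (𝓝 (t, z)) :=
    (by fun_prop : Continuous fun u : ℂ => (t, u)).tendsto z
  exact this.eventually h

theorem zero_mem3 : (0 : ℂ) ∈ ball (0 : ℂ) 3 := mem_ball_self (by norm_num)

theorem orbit_smul {Γ E : Type} [Group Γ] [MulAction Γ E] {γ : Γ} {e e₀ : E} :
    (∃ γ' : Γ, γ' • e₀ = γ • e) ↔ ∃ γ' : Γ, γ' • e₀ = e := by
  constructor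
  · rintro ⟨γ', h2⟩
    exact ⟨γ⁻¹ * γ', by rw [mul_smul, h2, inv_smul_smul]⟩
  · rintro ⟨γ', h2⟩
    exact ⟨γ * γ', by rw [mul_smul, h2]⟩

section
variable {d p : ℕ} {Z Y : Type} [TopologicalSpace Z] [T2Space Z] [ChartedSpace (Cm d) Z]
  [IsManifold 𝓘(ℂ, Cm d) ω Z] [TopologicalSpace Y] [T2Space Y] [ChartedSpace (Cm p) Y]
  [IsManifold 𝓘(ℂ, Cm p) ω Y] {f : Z → Y} {B : Matrix (Fin 0) (Fin 0) ℝ}

theorem exists_ploc (hD0 : D0Stmt) (L : Loc (d := d) (p := p) f B) {t₀ : Cm p}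
    (ht₀ : t₀ ∈ L.𝓕.T) : ∃ P : PLoc (d := d) (p := p) f B, P.toLoc = L ∧ t₀ ∈ P.T' := by
  obtain ⟨e⟩ : Nonempty L.E := inferInstance
  obtain ⟨-, i₀, -⟩ := L.𝓕.cover t₀ ht₀ e
  obtain ⟨T', m, k, h1, h2, h3, h4, h5, h6⟩ := hD0 p L.E L.Γ L.𝓕 L.M t₀ ht₀ i₀
  exact ⟨{ toLoc := L, T' := T', hT' := h1, isOpen' := h2, i₀ := i₀, m := m, k := k,
           inv := h4, hol := h5, kan := h6 }, rfl, h3⟩

namespace PLoc
variable (P : PLoc (d := d) (p := p) f B)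

theorem spole {t : Cm p} (ht : t ∈ P.T') :
    SPole (P.𝓕.at t (P.hT' ht)) (P.m t) (P.𝓕.σ P.i₀ t 0) where
  inv := P.inv t ht
  hol j z hz h := analyticAt_slice (P.hol j t ht z hz h)
  pole j z hz γ h := by
    obtain ⟨h1, h2⟩ := P.kan t ht
    have h3 : PForm (fun u => P.m t (P.𝓕.σ P.i₀ t u)) 0 := by
      refine ⟨fun u => 1 + u * P.k (t, u), ?_, by simp, ?_⟩
      · exact analyticAt_const.add (analyticAt_id.mul (analyticAt_slice h1))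
      · filter_upwards [nhdsWithin_le_nhds (eventually_slice h2), self_mem_nhdsWithin]
          with u a b
        rw [a b, sub_zero]
        have : u ≠ 0 := b
        field_simp
    obtain ⟨θ, a1, a2, a3⟩ := (P.𝓕.at t (P.hT' ht)).hol j P.i₀ z hz 0 zero_mem3 γ h.symm
    have a4 := (P.𝓕.at t (P.hT' ht)).trans_deriv hz zero_mem3 a1 a2 a3
    obtain ⟨g, b1, b2, b3⟩ := h3.comp a1 a2 a4
    refine ⟨g, b1, b2, ?_⟩
    filter_upwards [b3, nhdsWithin_le_nhds a3] with u c1 c2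
    rw [← c1]
    show P.m t ((P.𝓕.at t (P.hT' ht)).σ j u) = _
    rw [c2, P.inv t ht]
    rfl

/-- the results of U0 -/
theorem u0 (hU0 : U0Stmt) {t : Cm p} (ht : t ∈ P.T') :
    (∀ w : ℂ, ∃ e, P.m t e = w ∧ ∀ γ : P.Γ, γ • P.𝓕.σ P.i₀ t 0 ≠ e) ∧
    (∀ e e', (∀ γ : P.Γ, γ • P.𝓕.σ P.i₀ t 0 ≠ e) → (∀ γ : P.Γ, γ • P.𝓕.σ P.i₀ t 0 ≠ e') →
      P.m t e = P.m t e' → ∃ γ : P.Γ, γ • e = e') ∧
    (∀ j, ∀ z ∈ ball (0 : ℂ) 3, (∀ γ : P.Γ, γ • P.𝓕.σ P.i₀ t 0 ≠ P.𝓕.σ j t z) →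
      deriv (fun z => P.m t (P.𝓕.σ j t z)) z ≠ 0) := by
  obtain ⟨h1, h2⟩ := P.kan t ht
  obtain ⟨a, b, c, -⟩ := hU0 P.E P.Γ (P.𝓕.at t (P.hT' ht)) P.i₀ (P.m t) 0 (fun z => P.k (t, z))
    (by simp) (P.inv t ht) (P.spole ht).hol (analyticAt_slice h1) (by
      filter_upwards [nhdsWithin_le_nhds (eventually_slice h2), self_mem_nhdsWithin] with u a b
      rw [sub_zero]
      exact a b)
  exact ⟨a, b, c⟩

open Classical in
/-- homogeneous coordinates on `f⁻¹(U)` -/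
def c (x : Z) : ℂ × ℂ :=
  if h : ∃ e, P.q (P.χ (f x)) e = x then
    crd P.Γ (P.m (P.χ (f x))) (P.𝓕.σ P.i₀ (P.χ (f x)) 0) h.choose else (1, 0)

/-- the good points of `Y` -/
def Ok (y : Y) : Prop := y ∈ P.χ.source ∧ P.χ y ∈ P.T'

theorem isOpen_ok : IsOpen {y | P.Ok y} := P.χ.isOpen_inter_preimage P.isOpen'

theorem fq {t : Cm p} (ht : t ∈ P.T') (e : P.E) : P.χ (f (P.q t e)) = t := by
  rw [P.model.fib t (P.hT' ht), P.χ.right_inv (P.model.sub (P.hT' ht))]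

theorem exists_e {x : Z} (hx : P.Ok (f x)) : ∃ e, P.q (P.χ (f x)) e = x :=
  P.model.surj x hx.1 (P.hT' hx.2)

theorem crd_smul {t : Cm p} (ht : t ∈ P.T') (γ : P.Γ) (e e₀ : P.E) :
    crd P.Γ (P.m t) e₀ (γ • e) = crd P.Γ (P.m t) e₀ e := by
  rw [crd, crd, P.inv t ht]
  by_cases h : ∃ γ' : P.Γ, γ' • e₀ = e
  · rw [if_pos h, if_pos (orbit_smul.2 h)]
  · rw [if_neg h, if_neg (fun h' => h (orbit_smul.1 h'))]

theorem c_q {t : Cm p} (ht : t ∈ P.T') (e : P.E) :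
    P.c (P.q t e) = crd P.Γ (P.m t) (P.𝓕.σ P.i₀ t 0) e := by
  have h0 := P.fq ht e
  have h1 : ∃ e', P.q (P.χ (f (P.q t e))) e' = P.q t e := ⟨e, by rw [h0]⟩
  rw [c, dif_pos h1]
  have h2 := h1.choose_spec
  set e' := h1.choose with he'
  rw [h0] at h2
  obtain ⟨γ, hγ⟩ := (P.model.eq t (P.hT' ht) e e').1 h2.symm
  rw [h0, ← hγ, P.crd_smul ht]

theorem c_ne {x : Z} (hx : P.Ok (f x)) : P.c x ≠ 0 := by
  obtain ⟨e, he⟩ := P.exists_e hx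
  rw [← he, P.c_q hx.2, crd]
  split_ifs <;> simp

theorem c_inj (hU0 : U0Stmt) {x x' : Z} (hx : P.Ok (f x)) (hf : f x = f x')
    (h : J.wedge (P.c x) (P.c x') = 0) : x = x' := by
  obtain ⟨e, he⟩ := P.exists_e hx
  have hx' : P.Ok (f x') := hf ▸ hx
  obtain ⟨e', he'⟩ := P.exists_e hx'
  rw [← hf] at he'
  obtain ⟨-, h1, -⟩ := P.u0 hU0 hx.2
  rw [← he, ← he', P.c_q hx.2, P.c_q hx.2, crd, crd] at h
  rw [← he, ← he', P.model.eq _ (P.hT' hx.2)]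
  by_cases h2 : ∃ γ : P.Γ, γ • P.𝓕.σ P.i₀ (P.χ (f x)) 0 = e
  · by_cases h3 : ∃ γ : P.Γ, γ • P.𝓕.σ P.i₀ (P.χ (f x)) 0 = e'
    · obtain ⟨γ, a⟩ := h2
      obtain ⟨γ', b⟩ := h3
      exact ⟨γ' * γ⁻¹, by rw [← a, ← b, mul_smul, inv_smul_smul]⟩
    · rw [if_pos h2, if_neg h3] at h
      simp [J.wedge] at h
  · by_cases h3 : ∃ γ : P.Γ, γ • P.𝓕.σ P.i₀ (P.χ (f x)) 0 = e'
    · rw [if_neg h2, if_pos h3] at h
      simp [J.wedge] at h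
    · rw [if_neg h2, if_neg h3] at h
      simp only [J.wedge] at h
      push Not at h2 h3
      exact h1 e e' h2 h3 (by linear_combination h)

theorem c_surj (hU0 : U0Stmt) {y : Y} (hy : P.Ok y) (v : ℂ × ℂ) :
    ∃ x, f x = y ∧ J.wedge (P.c x) v = 0 := by
  obtain ⟨h1, -, -⟩ := P.u0 hU0 hy.2
  have hfy : ∀ e, f (P.q (P.χ y) e) = y := fun e => by
    rw [P.model.fib _ (P.hT' hy.2), P.χ.left_inv hy.1]
  by_cases hv : v.2 = 0
  · refine ⟨P.q (P.χ y) (P.𝓕.σ P.i₀ (P.χ y) 0), hfy _, ?_⟩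
    rw [P.c_q hy.2, crd, if_pos ⟨1, one_smul _ _⟩]
    simp [J.wedge, hv]
  · obtain ⟨e, he, hne⟩ := h1 (v.1 / v.2)
    refine ⟨P.q (P.χ y) e, hfy _, ?_⟩
    rw [P.c_q hy.2, crd, if_neg (by push Not; exact hne), he]
    simp only [J.wedge]
    field_simp
    ring

/-- holomorphic homogeneous coordinates near `x` -/
structure LiftAt (f : Z → Y) (c : Z → ℂ × ℂ) (x : Z) (G : Z → ℂ × ℂ) : Prop where
  h1 : HolV (Cm d) (fun z => (G z).1) x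
  h2 : HolV (Cm d) (fun z => (G z).2) x
  ne : G x ≠ 0
  ev : ∀ᶠ z in 𝓝 x, J.wedge (c z) (G z) = 0
  imm : ∀ ξ : Cm d, dM (Cm d) (Cm p) f x ξ = 0 →
    (G x).1 * dif (Cm d) (fun z => (G z).2) x ξ - (G x).2 * dif (Cm d) (fun z => (G z).1) x ξ = 0 →
    ξ = 0

theorem continuousAt_chi_f (hf : ContMDiff 𝓘(ℂ, Cm d) 𝓘(ℂ, Cm p) ω f) {x : Z}
    (hx : P.Ok (f x)) : ContinuousAt (fun x => P.χ (f x)) x :=
  ContinuousAt.comp (g := P.χ) (P.χ.continuousAt hx.1) hf.continuous.continuousAt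

theorem exists_lift (hU0 : U0Stmt) (hf : ContMDiff 𝓘(ℂ, Cm d) 𝓘(ℂ, Cm p) ω f) {x : Z}
    (hx : P.Ok (f x)) : ∃ G : Z → ℂ × ℂ, LiftAt (d := d) (p := p) f P.c x G := by
  obtain ⟨e, he⟩ := P.exists_e hx
  obtain ⟨γ, j, z, hz, hje⟩ := (P.𝓕.at _ (P.hT' hx.2)).cover e
  have hz3 : z ∈ ball (0 : ℂ) 3 := Sheets.mem3 hz
  set t := P.χ (f x) with ht
  have hjx : P.q t (P.𝓕.σ j t z) = x := by
    rw [← he]
    exact (P.model.eq t (P.hT' hx.2) _ _).2 ⟨γ, hje⟩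
  have hcf := P.continuousAt_chi_f hf hx
  have hok : ∀ᶠ x' in 𝓝 x, P.Ok (f x') :=
    hf.continuous.continuousAt.eventually (P.isOpen_ok.mem_nhds hx)
  by_cases hp : ∃ γ' : P.Γ, γ' • P.𝓕.σ P.i₀ t 0 = P.𝓕.σ j t z
  · -- at the pole
    have hx0 : P.q t (P.𝓕.σ P.i₀ t 0) = x := by
      rw [← hjx]
      exact (P.model.eq t (P.hT' hx.2) _ _).2 hp
    obtain ⟨ζ, b1, b2, b3⟩ := P.model.coord P.i₀ t (P.hT' hx.2) 0 zero_mem3
    rw [hx0] at b1 b2 b3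
    obtain ⟨k1, k2⟩ := P.kan t hx.2
    have hk : AnalyticAt ℂ P.k (P.χ (f x), ζ x) := by rw [b2, ← ht]; exact k1
    have hkV := holV_coord (g := P.k) hf P.model.atlas hx.1 b1 hk
    have hζV : HolV (Cm d) ζ x := b1
    refine ⟨fun x' => (1 + ζ x' * P.k (P.χ (f x'), ζ x'), ζ x'), ?_, hζV, ?_, ?_, ?_⟩
    · exact (HolV.const (1 : ℂ) x).add (hζV.mul hkV)
    · simp [b2]
    · have hc : ContinuousAt (fun x' => (P.χ (f x'), ζ x')) x :=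
        hcf.prodMk hζV.continuousAt
      have h3 : ∀ᶠ x' in 𝓝 x, ζ x' ≠ 0 → P.m (P.χ (f x')) (P.𝓕.σ P.i₀ (P.χ (f x')) (ζ x')) =
          (ζ x')⁻¹ + P.k (P.χ (f x'), ζ x') :=
        hc.eventually (p := fun q : Cm p × ℂ => q.2 ≠ 0 →
            P.m q.1 (P.𝓕.σ P.i₀ q.1 q.2) = q.2⁻¹ + P.k q) (by
          show ∀ᶠ q : Cm p × ℂ in 𝓝 (P.χ (f x), ζ x), q.2 ≠ 0 →
            P.m q.1 (P.𝓕.σ P.i₀ q.1 q.2) = q.2⁻¹ + P.k q
          rw [b2]; exact k2)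
      have h4 : ∀ᶠ x' in 𝓝 x, ζ x' ∈ ball (0 : ℂ) 3 := hζV.continuousAt.eventually (by
        rw [b2]; exact isOpen_ball.mem_nhds zero_mem3)
      filter_upwards [h3, h4, b3, hok] with x' c1 c2 c3 c4
      have h5 : P.c x' = crd P.Γ (P.m (P.χ (f x'))) (P.𝓕.σ P.i₀ (P.χ (f x')) 0)
          (P.𝓕.σ P.i₀ (P.χ (f x')) (ζ x')) := by
        rw [← P.c_q c4.2, c3]
      rw [h5, crd]
      by_cases h6 : ζ x' = 0
      · rw [if_pos ⟨1, by rw [h6, one_smul]⟩, h6]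
        simp [J.wedge]
      · rw [if_neg, c1 h6]
        · simp only [J.wedge]
          field_simp
          ring
        · rintro ⟨γ', h7⟩
          exact h6 (orbit_unique (P.𝓕.at _ (P.hT' c4.2)) (j := P.i₀) (γ := 1) (γ' := γ')
            (e₀ := P.𝓕.σ P.i₀ (P.χ (f x')) 0) zero_mem3 c2 (one_smul _ _) h7).symm
    · intro ξ hξ h
      simp only [b2, zero_mul, add_zero, one_mul, sub_zero] at h
      exact coord_inj (Ψ := fun r : Cm p × ℂ => P.q r.1 (P.𝓕.σ P.i₀ r.1 r.2)) hf P.model.atlas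
        hx.1 b1 (by rw [b2]; exact P.model.hol P.i₀ t (P.hT' hx.2) 0 zero_mem3) b3 hξ h
  · -- not at the pole
    push Not at hp
    obtain ⟨ζ, b1, b2, b3⟩ := P.model.coord j t (P.hT' hx.2) z hz3
    rw [hjx] at b1 b2 b3
    have hζV : HolV (Cm d) ζ x := b1
    set g : Cm p × ℂ → ℂ := fun q => P.m q.1 (P.𝓕.σ j q.1 q.2) with hg
    have hga : AnalyticAt ℂ g (P.χ (f x), ζ x) := by
      rw [b2, ← ht]; exact P.hol j t hx.2 z hz3 hp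
    have hgV := holV_coord (g := g) hf P.model.atlas hx.1 b1 hga
    refine ⟨fun x' => (g (P.χ (f x'), ζ x'), 1), hgV, HolV.const (1 : ℂ) x, by simp, ?_, ?_⟩
    · -- no pole near `x`
      have hpt : ContinuousAt (fun x' => P.q (P.χ (f x')) (P.𝓕.σ P.i₀ (P.χ (f x')) 0)) x := by
        have h1 : ContinuousAt (fun r : Cm p × ℂ => P.q r.1 (P.𝓕.σ P.i₀ r.1 r.2)) (t, 0) :=
          (P.model.hol P.i₀ t (P.hT' hx.2) 0 zero_mem3).continuousAt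
        have h2 : ContinuousAt (fun x' => (P.χ (f x'), (0 : ℂ))) x :=
          hcf.prodMk continuousAt_const
        exact ContinuousAt.comp (f := fun x' => (P.χ (f x'), (0 : ℂ)))
          (g := fun r : Cm p × ℂ => P.q r.1 (P.𝓕.σ P.i₀ r.1 r.2)) h1 h2
      have hne : x ≠ P.q (P.χ (f x)) (P.𝓕.σ P.i₀ (P.χ (f x)) 0) := by
        intro h
        rw [← hjx] at h
        have h2 : P.q t (P.𝓕.σ P.i₀ t 0) = P.q t (P.𝓕.σ j t z) := by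
          rw [h, hjx]
        obtain ⟨γ', h3⟩ := (P.model.eq t (P.hT' hx.2) _ _).1 h2
        exact hp γ' h3
      have h3 : ∀ᶠ x' in 𝓝 x, x' ≠ P.q (P.χ (f x')) (P.𝓕.σ P.i₀ (P.χ (f x')) 0) :=
        (ContinuousAt.ne_iff_eventually_ne continuousAt_id hpt).1 hne
      filter_upwards [h3, b3, hok] with x' c1 c2 c3
      have h5 : P.c x' = crd P.Γ (P.m (P.χ (f x'))) (P.𝓕.σ P.i₀ (P.χ (f x')) 0)
          (P.𝓕.σ j (P.χ (f x')) (ζ x')) := by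
        rw [← P.c_q c3.2, c2]
      rw [h5, crd, if_neg]
      · simp [J.wedge, hg]
      · rintro ⟨γ', h7⟩
        apply c1
        rw [(P.model.eq _ (P.hT' c3.2) _ _).2 ⟨γ', h7⟩, c2]
    · intro ξ hξ h
      have h0 : dif (Cm d) (fun _ : Z => (1 : ℂ)) x = 0 := mfderiv_const
      have h1 := dif_coord (g := g) hf P.model.atlas hx.1 b1 hga hξ
      simp only [h0, zero_apply, mul_zero, one_mul, zero_sub,
        neg_eq_zero] at h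
      rw [h1, b2] at h
      have h2 : deriv (fun w => g (P.χ (f x), w)) z ≠ 0 := (P.u0 hU0 hx.2).2.2 j z hz3 hp
      have h4 : dif (Cm d) ζ x ξ = 0 := (mul_eq_zero.1 h).resolve_left h2
      exact coord_inj (Ψ := fun r : Cm p × ℂ => P.q r.1 (P.𝓕.σ j r.1 r.2)) hf P.model.atlas
        hx.1 b1 (by rw [b2]; exact P.model.hol j t (P.hT' hx.2) z hz3) b3 hξ h4

end PLoc

end

end Vale.Agent.P281.H511
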